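import Vale.Agent.P078.Assembly.SymSpan
import Vale.Agent.P078.Assembly.Trunc
import Vale.Agent.P078.TypeIII.Seeded.Equi
import Vale.Agent.P078.TypeIII.Split

/-!
# Approximation by bounded self-adjoint elements of the span of normalising symmetries
-/

namespace Vale.Agent.P078.TypeIII.Regular

open ComplexInnerProductSpace
open Filter Topology
open Vale.Agent.P078 Vale.Agent.P078.General Vale.Agent.P078.Finite
open scoped CStarAlgebra

universe u

variable {H : Type u} [NormedAddCommGroup H] [InnerProductSpace ℂ H] [CompleteSpace H]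
variable {M : VonNeumannAlgebra H} {A : StarSubalgebra ℂ (H →L[ℂ] H)} {Ω : H}
variable (h : CentSetting M A Ω)
include h

lemma normaliser_mem_symSpan {v : H →L[ℂ] H} (hv : IsNormaliser M A v) : v ∈ symSpan M A := by
  obtain ⟨f, p, ⟨hfA, hf⟩, hp, hfp, hpp, hsum, hvf, hsep⟩ := TypeIII.exists_split h hv
  have e : v = v * f + ∑ i, v * p i := by
    rw [← Finset.mul_sum, ← mul_add, hsum, hv.mul_src]
  rw [e]
  refine add_mem (symSpan_mem_A hvf) (Submodule.sum_mem _ (fun i _ => ?_))
  have hsp : star v * v * p i = p i := by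
    rw [← hsum, add_mul, hfp i, zero_add, Finset.sum_mul, Finset.sum_eq_single i
      (fun j _ hj => hpp j i hj) (by simp)]
    exact (hp i).2.isIdempotentElem
  obtain ⟨s, hs, he⟩ := exists_sym h.masa hv (hp i).1 (hp i).2 hsp (hsep i)
  exact Submodule.subset_span ⟨_, hv.conj_mem (hp i).1, s, hs, he⟩

lemma spanN_le_symSpan : spanN M A ≤ symSpan M A :=
  Submodule.span_le.2 (fun _ hv => normaliser_mem_symSpan h hv)

/-- A self-adjoint contraction generated by normalisers is approximated at the vector by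
self-adjoint elements of norm at most three in the span of the normalisers. -/
theorem exists_span_approx {n : H →L[ℂ] H} (hn : CN M A Ω n) (hns : IsSelfAdjoint n)
    (hn1 : ‖n‖ ≤ 1) {η : ℝ} (hη : 0 < η) :
    ∃ t ∈ spanN M A, IsSelfAdjoint t ∧ ‖t‖ ≤ 3 ∧ ‖(n - t) Ω‖ ≤ η := by
  have hA := h.masa
  set δ := min (1 / 2) (η / (4 * (‖Ω‖ + 1))) with hδ
  have hδ0 : 0 < δ := lt_min (by norm_num) (by positivity)
  obtain ⟨z, hzM, hzs, hzn, C, -, happ⟩ := Seeded.exists_bounded_approx h hn hns hδ0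
  choose s hs hss hsC hsd using fun m : ℕ => happ (1 / ((m : ℝ) + 1)) Nat.one_div_pos_of_nat
  have hz2 : ‖z‖ ≤ 2 := by
    have := norm_le_insert n z
    linarith [min_le_left (1 / 2 : ℝ) (η / (4 * (‖Ω‖ + 1)))]
  obtain ⟨p, hp⟩ := exists_polynomial_near_of_continuousOn (-(max C 2)) (max C 2) (clamp 2)
    (clamp_continuous 2).continuousOn _ hδ0
  have hnear : ∀ T : H →L[ℂ] H, IsSelfAdjoint T → ‖T‖ ≤ max C 2 →
      ‖cfc p.eval T - cfc (clamp 2) T‖ ≤ δ := fun T _ hT => by
    rw [← cfc_sub (a := T) p.eval (clamp 2) p.continuous.continuousOn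
      (clamp_continuous 2).continuousOn]
    refine norm_cfc_le hδ0.le (fun u hu => ?_)
    rcases subsingleton_or_nontrivial (H →L[ℂ] H) with hs' | hs'
    · simp [spectrum.of_subsingleton] at hu
    have hu' := (spectrum.norm_le_norm_of_mem hu).trans hT
    rw [Real.norm_eq_abs] at hu' ⊢
    exact (hp u (abs_le.1 hu')).le
  have hclz : cfc (clamp 2) z = z := by
    conv_rhs => rw [← cfc_id' ℝ z hzs]
    refine cfc_congr (fun u hu => ?_)
    rcases subsingleton_or_nontrivial (H →L[ℂ] H) with hs' | hs'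
    · simp [spectrum.of_subsingleton] at hu
    have hu' := (spectrum.norm_le_norm_of_mem hu).trans hz2
    rw [Real.norm_eq_abs, abs_le] at hu'
    simp only [clamp]
    rw [min_eq_right hu'.2, max_eq_right hu'.1]
  have hsM : ∀ m, s m ∈ M := fun m => spanC_mem_M (hs m)
  have ht1 : Tendsto (fun m => s m Ω) atTop (𝓝 (z Ω)) := by
    rw [tendsto_iff_norm_sub_tendsto_zero]
    refine squeeze_zero (fun _ => norm_nonneg _) (fun m => ?_) tendsto_one_div_add_atTop_nhds_zero_nat
    rw [norm_sub_rev, ← sub_apply]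
    exact hsd m
  have hpow : ∀ k : ℕ, Tendsto (fun m => (s m ^ k) Ω) atTop (𝓝 ((z ^ k) Ω)) := by
    intro k
    induction k with
    | zero => simp
    | succ k ih =>
      simp only [pow_succ']
      exact TypeIII.tendsto_mul h hsM hzM hsC ht1 ih
  have hpol : Tendsto (fun m => cfc p.eval (s m) Ω) atTop (𝓝 (cfc p.eval z Ω)) := by
    simp only [cfc_polynomial p z hzs, fun m => cfc_polynomial p (s m) (hss m),
      Polynomial.aeval_eq_sum_range, _root_.sum_apply, smul_apply]
    exact tendsto_finsetSum _ fun k _ => (hpow k).const_smul _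
  obtain ⟨m, hm⟩ := (hpol.eventually (Metric.ball_mem_nhds _ (show 0 < η / 4 by linarith))).exists
  rw [dist_eq_norm, norm_sub_rev] at hm
  set y := cfc p.eval (s m) with hy
  have hyC : y ∈ spanC M A := Seeded.cfc_mem_spanC hA (hs m) _
  have hys : IsSelfAdjoint y := cfc_predicate _ _
  obtain ⟨t₀, ht₀, hd₀⟩ := Metric.mem_closure_iff.1
    (show y ∈ closure (spanN M A : Set (H →L[ℂ] H)) by
      rw [← Submodule.topologicalClosure_coe]; exact hyC) δ hδ0
  rw [dist_eq_norm] at hd₀
  set t := (2⁻¹ : ℂ) • (t₀ + star t₀) with ht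
  have hyt : ‖y - t‖ ≤ δ := by
    have e : y - t = (2⁻¹ : ℂ) • ((y - t₀) + star (y - t₀)) := by
      rw [ht, star_sub, hys.star_eq]; module
    rw [e, norm_smul]
    refine (mul_le_mul_of_nonneg_left (norm_add_le _ _) (norm_nonneg _)).trans ?_
    rw [norm_star]
    norm_num
    linarith
  have hy2 : ‖y‖ ≤ 2 + δ := by
    have h1 := norm_le_insert (cfc (clamp 2) (s m)) y
    have h2 := hnear _ (hss m) ((hsC m).trans (le_max_left _ _))
    have h3 := norm_cfc_clamp_le (zero_le_two (α := ℝ)) (s m)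
    rw [norm_sub_rev] at h1
    linarith
  refine ⟨t, Submodule.smul_mem _ _ (add_mem ht₀ (spanN_star ht₀)),
    by simp [IsSelfAdjoint, t, star_smul, add_comm], ?_, ?_⟩
  · have := norm_le_insert y t
    linarith [min_le_left (1 / 2 : ℝ) (η / (4 * (‖Ω‖ + 1)))]
  have hδη : δ * ‖Ω‖ ≤ η / 4 := by
    refine (mul_le_mul_of_nonneg_right (min_le_right _ _) (norm_nonneg Ω)).trans ?_
    rw [div_mul_eq_mul_div, div_le_iff₀ (by positivity)]
    nlinarith [norm_nonneg Ω]
  have a1 : ‖(n - z) Ω‖ ≤ η / 4 := (norm_sum_apply_le hzn Ω).trans hδη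
  have a2 : ‖(z - cfc p.eval z) Ω‖ ≤ η / 4 := by
    have := hnear z hzs (hz2.trans (le_max_right _ _))
    rw [hclz, norm_sub_rev] at this
    exact (norm_sum_apply_le this Ω).trans hδη
  have a4 : ‖(y - t) Ω‖ ≤ η / 4 := (norm_sum_apply_le hyt Ω).trans hδη
  rw [show n - t = (n - z) + (z - cfc p.eval z) + (cfc p.eval z - y) + (y - t) by abel,
    add_apply, add_apply, add_apply, sub_apply (cfc p.eval z)]
  linarith [norm_add_le ((n - z) Ω + (z - cfc p.eval z) Ω + (cfc p.eval z Ω - y Ω)) ((y - t) Ω),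
    norm_add_le ((n - z) Ω + (z - cfc p.eval z) Ω) (cfc p.eval z Ω - y Ω),
    norm_add_le ((n - z) Ω) ((z - cfc p.eval z) Ω)]

end Vale.Agent.P078.TypeIII.Regular
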