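import Vale.Agent.P078.Transfer.BuildKernel
import Vale.Agent.P078.TypeIII.Split
import Vale.Agent.P078.TypeIII.Normaliser

/-!
# Characters, normalisers and kernels without a trace

The statements of the transfer which used the trace only through the equivariance of the
conditional expectation, for a MASA in the centraliser of a separating vector.
-/

namespace Vale.Agent.P078.TypeIII.Regular

open ComplexInnerProductSpace
open Filter Topology WeakDual
open scoped Matrix
open Vale.Agent.P078 Vale.Agent.P078.General Vale.Agent.P078.Finite Vale.Agent.P078.Mss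
open Vale.Agent.P078.Transfer

universe u

variable {H : Type u} [NormedAddCommGroup H] [InnerProductSpace ℂ H] [CompleteSpace H]
variable {M : VonNeumannAlgebra H} {A : StarSubalgebra ℂ (H →L[ℂ] H)} {Ω : H}
variable (h : CentSetting M A Ω)
include h

lemma om_conj {v y : H →L[ℂ] H} (hv : IsU M A v) (hy : y ∈ M) (χ : Chars A) :
    om h.masa χ (v * y * star v) = om h.masa (hh h.masa v χ) y := by
  rw [om, ← TypeIII.plim_conj h hv.normaliser hy, om, evA_hh hv χ (plim_mem h.masa hy)]

lemma om_eq_zero_of_moved {w : H →L[ℂ] H} (hw : IsU M A w) {χ : Chars A}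
    (hne : hh h.masa w χ ≠ χ) : om h.masa χ w = 0 := by
  by_contra h0
  refine hne (evA_ext (fun a ha => ?_))
  have e : w * a = w * a * star w * w := by rw [mul_assoc _ (star w), hw.sm, mul_one]
  have h1 := congrArg (om h.masa χ) e
  rw [om_mul_right χ ha hw.mem, om_mul_left χ (hw.conj a ha) hw.mem, mul_comm] at h1
  rw [evA_hh hw χ ha]
  exact (mul_right_cancel₀ h0 h1).symm

/-- The clopen set of fixed characters of a unitary normaliser. -/
lemma exists_fixed {w : H →L[ℂ] H} (hw : IsU M A w) :
    ∃ f : H →L[ℂ] H, f ∈ A ∧ IsStarProjection f ∧ w * f ∈ A ∧ f * w = w * f ∧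
      ∀ χ : Chars A, hh h.masa w χ = χ ↔ evA χ f = 1 := by
  have hA := h.masa
  obtain ⟨f, p, ⟨hfA, hf⟩, hp, hfp, -, hsum, hwf, hsep⟩ := TypeIII.exists_split h hw.normaliser
  rw [hw.sm] at hsum
  have h1 : star (w * f) * (w * f) = f := by
    rw [star_mul, hf.isSelfAdjoint.star_eq, mul_assoc, ← mul_assoc (star w), hw.sm, one_mul,
      hf.isIdempotentElem.eq]
  have h2 : w * f * star w = f := by
    have e : w * f * star (w * f) = f := by rw [hA.comm hwf (star_mem hwf), h1]
    rwa [star_mul, hf.isSelfAdjoint.star_eq, ← mul_assoc, mul_assoc w f f,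
      hf.isIdempotentElem.eq] at e
  have hcomm : f * w = w * f := by
    calc f * w = w * f * star w * w := by rw [h2]
      _ = w * f := by rw [mul_assoc _ (star w), hw.sm, mul_one]
  refine ⟨f, hfA, hf, hwf, hcomm, fun χ => ⟨fun hfix => ?_, fun hev => ?_⟩⟩
  · have hp0 : ∀ i, evA χ (p i) = 0 := fun i => by
      have e : evA χ (p i) * evA χ (p i) = 0 := by
        calc evA χ (p i) * evA χ (p i) = evA χ (p i) * evA (hh h.masa w χ) (p i) := by rw [hfix]
          _ = evA χ (p i * (w * p i * star w)) := by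
              rw [evA_hh hw χ (hp i).1, evA_mul χ (hp i).1 (hw.conj _ (hp i).1)]
          _ = 0 := by rw [hsep i, evA_of_mem χ (zero_mem A)]; exact map_zero χ
      simpa using e
    have e2 := congrArg (evA χ) hsum
    rw [evA_one, evA_add χ hfA (sum_mem (fun i _ => (hp i).1))] at e2
    have e3 : evA χ (∑ i, p i) = ∑ i, evA χ (p i) := by
      rw [Fin.sum_univ_three, Fin.sum_univ_three, evA_add χ (add_mem (hp 0).1 (hp 1).1) (hp 2).1,
        evA_add χ (hp 0).1 (hp 1).1]
    simpa [e3, hp0] using e2
  · refine evA_ext (fun a ha => ?_)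
    rw [evA_hh hw χ ha]
    have e : f * (w * a * star w) * f = (w * f) * a * star (w * f) := by
      rw [star_mul, hf.isSelfAdjoint.star_eq]
      calc f * (w * a * star w) * f = f * w * a * (star w * f) := by simp only [mul_assoc]
        _ = w * f * a * (star w * f) := by rw [hcomm]
        _ = w * f * a * (star w * (w * f * star w)) := by rw [h2]
        _ = w * f * a * (star w * w * f * star w) := by simp only [mul_assoc]
        _ = _ := by rw [hw.sm, one_mul]
    have e2 := congrArg (evA χ) e
    rw [evA_mul χ (mul_mem hfA (hw.conj a ha)) hfA, evA_mul χ hfA (hw.conj a ha),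
      evA_mul χ (mul_mem hwf ha) (star_mem hwf), evA_mul χ hwf ha, mul_right_comm (evA χ (w * f)),
      ← evA_mul χ hwf (star_mem hwf), hA.comm hwf (star_mem hwf), h1, hev] at e2
    simpa using e2

lemma key_fixed {w : H →L[ℂ] H} (hw : IsU M A w) {χ : Chars A} (hfix : hh h.masa w χ = χ) :
    starRingEnd ℂ (om h.masa χ w) * om h.masa χ w = 1 ∧ ∀ y ∈ M,
      om h.masa χ (w * y) = om h.masa χ w * om h.masa χ y ∧
      om h.masa χ (y * w) = om h.masa χ y * om h.masa χ w := by
  obtain ⟨f, hfA, hf, hwf, hcomm, hiff⟩ := exists_fixed h hw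
  have hev := (hiff χ).1 hfix
  have hw1 : om h.masa χ w = evA χ (w * f) := by
    have h1 := om_mul_right (hA := h.masa) χ hfA hw.mem
    rw [om_mem χ hwf, hev, mul_one] at h1
    exact h1.symm
  refine ⟨?_, fun y hy => ⟨?_, ?_⟩⟩
  · rw [hw1, ← evA_star h.masa χ hwf, ← evA_mul χ (star_mem hwf) hwf, star_mul,
      hf.isSelfAdjoint.star_eq, mul_assoc, ← mul_assoc (star w), hw.sm, one_mul,
      hf.isIdempotentElem.eq, hev]
  · rw [hw1, ← om_mul_left χ hwf hy, ← hcomm, mul_assoc, om_mul_left χ hfA (mul_mem hw.mem hy),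
      hev, one_mul]
  · rw [hw1, ← om_mul_right χ hwf hy, ← mul_assoc, om_mul_right χ hfA (mul_mem hy hw.mem), hev,
      mul_one]

lemma X_unitary_eq_zero {v : H →L[ℂ] H} (hv : IsU M A v) {χ φ : Chars A}
    (hne : hh h.masa v χ ≠ φ) : X h.masa v χ φ = 0 := by
  by_cases he : base h.masa χ = base h.masa φ
  · have hu := urep_isU h.masa χ
    have hu' := urep_isU h.masa φ
    rw [X_of_eq he]
    refine om_eq_zero_of_moved h ((hu.mul hv).mul hu'.adj) (fun e => hne ?_)
    rw [hh_mul (hu.mul hv) hu'.adj, hh_mul hu hv, hh_urep] at e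
    have e' := congrArg (hh h.masa (urep h.masa φ)) e
    rwa [hh_hh_star hu', he, hh_urep] at e'
  · exact X_of_ne he

open Classical in
lemma X_one (χ φ : Chars A) : X h.masa 1 χ φ = if χ = φ then 1 else 0 := by
  split_ifs with e
  · subst e
    rw [X_of_eq rfl, mul_one, (urep_isU h.masa χ).ms, om_one]
  · exact X_unitary_eq_zero h (IsU.one M A) (by rwa [hh_one])

lemma X_unitary_mul {v z : H →L[ℂ] H} (hv : IsU M A v) (hz : z ∈ M) (χ φ : Chars A) :
    X h.masa (v * z) χ φ = X h.masa v χ (hh h.masa v χ) * X h.masa z (hh h.masa v χ) φ := by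
  set θ := hh h.masa v χ with hθ
  have hb : base h.masa θ = base h.masa χ := base_hh hv χ
  by_cases he : base h.masa χ = base h.masa φ
  · have hu := urep_isU h.masa χ
    have hu' := urep_isU h.masa θ
    have hw : IsU M A (urep h.masa χ * v * star (urep h.masa θ)) := (hu.mul hv).mul hu'.adj
    have hfix : hh h.masa (urep h.masa χ * v * star (urep h.masa θ)) (base h.masa χ)
        = base h.masa χ := by
      rw [hh_mul (hu.mul hv) hu'.adj, hh_mul hu hv, hh_urep, ← hθ, hh_star_urep, hb]
    have e : urep h.masa χ * (v * z) * star (urep h.masa φ)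
        = (urep h.masa χ * v * star (urep h.masa θ))
          * (urep h.masa θ * z * star (urep h.masa φ)) := by
      symm
      calc (urep h.masa χ * v * star (urep h.masa θ))
            * (urep h.masa θ * z * star (urep h.masa φ))
          = urep h.masa χ * v * (star (urep h.masa θ) * urep h.masa θ) * z
            * star (urep h.masa φ) := by simp only [mul_assoc]
        _ = _ := by rw [hu'.sm, mul_one]; simp only [mul_assoc]
    rw [X_of_eq he, X_of_eq hb.symm, X_of_eq (hb.trans he), e,
      ((key_fixed h hw hfix).2 _ (conj_mem_M hz)).1, hb]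
  · rw [X_of_ne he, X_of_ne (y := z) (fun e => he (hb.symm.trans e)), mul_zero]

lemma X_diag {y : H →L[ℂ] H} (hy : y ∈ M) (ψ : Chars A) :
    X h.masa y ψ ψ = om h.masa ψ y := by
  rw [X_of_eq rfl, om_conj h (urep_isU h.masa ψ) hy, hh_urep]

lemma phase_fix {g : H →L[ℂ] H} (hg : IsU M A g) (ψ : Chars A) :
    hh h.masa (urep h.masa (hh h.masa g ψ) * star (urep h.masa ψ * g)) (base h.masa ψ)
      = base h.masa ψ := by
  have hu := urep_isU h.masa ψ
  have hug := hu.mul hg
  have e1 : hh h.masa (urep h.masa (hh h.masa g ψ)) (base h.masa ψ) = hh h.masa g ψ := by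
    conv_rhs => rw [← hh_urep h.masa (hh h.masa g ψ)]
    rw [base_hh hg]
  have e2 : hh h.masa (urep h.masa ψ * g) (base h.masa ψ) = hh h.masa g ψ := by
    rw [hh_mul hu hg, hh_urep]
  rw [hh_mul (urep_isU _ _) hug.adj, e1, ← e2, hh_star_hh hug]

lemma phase_norm {g : H →L[ℂ] H} (hg : IsU M A g) (ψ : Chars A) :
    starRingEnd ℂ (phase h.masa g ψ) * phase h.masa g ψ = 1 :=
  (key_fixed h ((urep_isU _ _).mul ((urep_isU h.masa ψ).mul hg).adj) (phase_fix h hg ψ)).1

lemma X_moved {g g' y : H →L[ℂ] H} (hg : IsU M A g) (hg' : IsU M A g') (hy : y ∈ M)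
    (ψ : Chars A) : X h.masa y (hh h.masa g ψ) (hh h.masa g' ψ)
      = phase h.masa g ψ * starRingEnd ℂ (phase h.masa g' ψ)
        * om h.masa ψ (g * y * star g') := by
  have hu := urep_isU h.masa ψ
  have hw := (urep_isU h.masa (hh h.masa g ψ)).mul (hu.mul hg).adj
  have hw' := (urep_isU h.masa (hh h.masa g' ψ)).mul (hu.mul hg').adj
  have hb : base h.masa (hh h.masa g ψ) = base h.masa ψ := base_hh hg ψ
  have hb' : base h.masa (hh h.masa g' ψ) = base h.masa ψ := base_hh hg' ψ
  have hz : g * y * star g' ∈ M := mul_mem (mul_mem hg.mem hy) (star_mem hg'.mem)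
  rw [X_of_eq (hb.trans hb'.symm), hb]
  set U := urep h.masa (hh h.masa g ψ) with hU
  set U' := urep h.masa (hh h.masa g' ψ) with hU'
  set u := urep h.masa ψ with hu'
  have hcore : u * (g * y * star g') * star u ∈ M :=
    mul_mem (mul_mem hu.mem hz) (star_mem hu.mem)
  have e : U * y * star U'
      = (U * star (u * g)) * (u * (g * y * star g') * star u) * star (U' * star (u * g')) := by
    symm
    calc (U * star (u * g)) * (u * (g * y * star g') * star u) * star (U' * star (u * g'))
        = U * (star (u * g) * (u * g)) * y * (star (u * g') * (u * g')) * star U' := by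
          simp only [star_mul, star_star, mul_assoc]
      _ = _ := by rw [(hu.mul hg).sm, (hu.mul hg').sm, mul_one, mul_one]
  have hfix' := phase_fix h hg' ψ
  have hfixs : hh h.masa (star (U' * star (u * g'))) (base h.masa ψ) = base h.masa ψ := by
    conv_lhs => arg 3; rw [← hfix']
    exact hh_star_hh hw' _
  rw [e, ((key_fixed h hw'.adj hfixs).2 _ (mul_mem hw.mem hcore)).2,
    ((key_fixed h hw (phase_fix h hg ψ)).2 _ hcore).1, om_star _ hw'.mem, om_conj h hu hz,
    hh_urep]
  unfold phase
  rw [← hU, ← hU', ← hu']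
  ring

/-- The kernel of a Hermitian contraction has numerical range in `[-1, 1]`. -/
lemma X_numBound {x : H →L[ℂ] H} (hx : x ∈ M) (hxs : IsSelfAdjoint x) (hx1 : ‖x‖ ≤ 1)
    (S : Finset (Chars A)) :
    NumBound ((Matrix.of (X h.masa x)).submatrix (Subtype.val : {v // v ∈ S} → Chars A)
      Subtype.val) 1 := by
  classical
  refine ⟨?_, fun v => ?_⟩
  · ext i j
    simp only [Matrix.conjTranspose_apply, Matrix.submatrix_apply, Matrix.of_apply]
    rw [← starRingEnd_apply, ← X_star hx, hxs.star_eq]
  let W : Chars A → (H →L[ℂ] H) := fun b =>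
    ∑ i ∈ Finset.univ.filter (fun i : {v // v ∈ S} => base h.masa i.1 = b),
      starRingEnd ℂ (v i) • urep h.masa i.1
  have hWM : ∀ b, W b ∈ M := fun b =>
    sum_mem (fun i _ => smul_mem_vna _ (urep_isU h.masa i.1).mem)
  let B : Finset (Chars A) :=
    Finset.univ.image (fun i : {v // v ∈ S} => base h.masa i.1)
  have key : ∀ y ∈ M,
      ∑ i, starRingEnd ℂ (v i) * ∑ j, X h.masa y i.1 j.1 * v j
        = ∑ b ∈ B, om h.masa b (W b * y * star (W b)) := by
    intro y hy
    rw [← Finset.sum_fiberwise_of_maps_to (g := fun i : {v // v ∈ S} => base h.masa i.1)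
      (t := B) (fun i hi => Finset.mem_image_of_mem _ hi)]
    refine Finset.sum_congr rfl (fun b _ => ?_)
    have e : W b * y * star (W b) = ∑ i ∈ Finset.univ.filter
        (fun i : {v // v ∈ S} => base h.masa i.1 = b), ∑ j ∈ Finset.univ.filter
        (fun i : {v // v ∈ S} => base h.masa i.1 = b),
        (starRingEnd ℂ (v i) * v j) • (urep h.masa i.1 * y * star (urep h.masa j.1)) := by
      simp only [W, star_sum, star_smul, Finset.sum_mul, Finset.mul_sum, smul_mul_assoc,
        mul_smul_comm]
      rw [Finset.sum_comm]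
      simp [Finset.smul_sum, smul_smul, mul_comm]
    rw [e, om_sum _ _ (fun i _ => sum_mem (fun j _ => smul_mem_vna _ (conj_mem_M hy)))]
    refine Finset.sum_congr rfl (fun i hi => ?_)
    rw [om_sum _ _ (fun j _ => smul_mem_vna _ (conj_mem_M hy)), Finset.mul_sum]
    rw [Finset.mem_filter] at hi
    rw [← Finset.sum_subset (Finset.subset_univ (Finset.univ.filter
      (fun i : {v // v ∈ S} => base h.masa i.1 = b)))]
    · refine Finset.sum_congr rfl (fun j hj => ?_)
      rw [Finset.mem_filter] at hj
      rw [om_smul _ _ (conj_mem_M hy), X_of_eq (hi.2.trans hj.2.symm), hi.2]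
      ring
    · intro j _ hj
      have : base h.masa i.1 ≠ base h.masa j.1 := fun e => hj (by simp [← e, hi.2])
      simp [X_of_ne this]
  have hone : ∑ b ∈ B, (om h.masa b (W b * 1 * star (W b))).re
      = ∑ i, Complex.normSq (v i) := by
    rw [← Complex.re_sum, ← key 1 (one_mem M), Complex.re_sum]
    refine Finset.sum_congr rfl (fun i _ => ?_)
    simp [X_one h, Complex.normSq_apply, Complex.mul_re]
  have hpos : ∀ y : H →L[ℂ] H, y ∈ M → y.IsPositive →
      ∀ b, 0 ≤ (om h.masa b (W b * y * star (W b))).re := fun y hy hp b => by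
    refine om_re_nonneg b (mul_mem (mul_mem (hWM b) hy) (star_mem (hWM b))) ?_
    have := hp.conj_adjoint (W b)
    rw [← ContinuousLinearMap.star_eq_adjoint] at this
    rw [mul_assoc]
    exact this
  have hb1 : ∀ w, |(⟪x w, w⟫).re| ≤ (⟪w, w⟫).re := fun w => by
    refine (Complex.abs_re_le_norm _).trans ((norm_inner_le_norm _ _).trans ?_)
    rw [← RCLike.re_to_complex, ← @norm_sq_eq_re_inner ℂ, sq]
    exact mul_le_mul_of_nonneg_right ((x.le_opNorm w).trans
      (mul_le_of_le_one_left (norm_nonneg _) hx1)) (norm_nonneg _)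
  have hm : (1 - x).IsPositive := by
    refine (ContinuousLinearMap.isPositive_def').2
      ⟨(IsSelfAdjoint.one _).sub hxs, fun w => ?_⟩
    rw [ContinuousLinearMap.reApplyInnerSelf_apply, sub_apply, one_apply_eq_self, inner_sub_left,
      RCLike.re_to_complex, Complex.sub_re]
    linarith [(abs_le.1 (hb1 w)).2]
  have hp : (1 + x).IsPositive := by
    refine (ContinuousLinearMap.isPositive_def').2
      ⟨(IsSelfAdjoint.one _).add hxs, fun w => ?_⟩
    rw [ContinuousLinearMap.reApplyInnerSelf_apply, add_apply, one_apply_eq_self, inner_add_left,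
      RCLike.re_to_complex, Complex.add_re]
    linarith [(abs_le.1 (hb1 w)).1]
  have hxv : star v ⬝ᵥ ((Matrix.of (X h.masa x)).submatrix (Subtype.val : {v // v ∈ S} → Chars A)
      Subtype.val) *ᵥ v = ∑ b ∈ B, om h.masa b (W b * x * star (W b)) := by
    rw [← key x hx]
    rfl
  rw [hxv, one_mul, Complex.re_sum, ← hone]
  have hlin : ∀ b, om h.masa b (W b * (1 + x) * star (W b))
        = om h.masa b (W b * 1 * star (W b)) + om h.masa b (W b * x * star (W b)) ∧
      om h.masa b (W b * (1 - x) * star (W b))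
        = om h.masa b (W b * 1 * star (W b)) - om h.masa b (W b * x * star (W b)) := by
    intro b
    have hm1 : W b * 1 * star (W b) ∈ M :=
      mul_mem (mul_mem (hWM b) (one_mem M)) (star_mem (hWM b))
    have hmx : W b * x * star (W b) ∈ M := mul_mem (mul_mem (hWM b) hx) (star_mem (hWM b))
    constructor
    · rw [← om_add _ hm1 hmx, ← add_mul, ← mul_add]
    · rw [eq_sub_iff_add_eq, ← om_add _ (mul_mem (mul_mem (hWM b) (sub_mem (one_mem M) hx))
        (star_mem (hWM b))) hmx, ← add_mul, ← mul_add, sub_add_cancel]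
  refine abs_le.2 ⟨?_, ?_⟩
  · rw [← Finset.sum_neg_distrib]
    refine Finset.sum_le_sum (fun b _ => ?_)
    have := hpos _ (add_mem (one_mem M) hx) hp b
    rw [(hlin b).1, Complex.add_re] at this
    linarith
  · refine Finset.sum_le_sum (fun b _ => ?_)
    have := hpos _ (sub_mem (one_mem M) hx) hm b
    rw [(hlin b).2, Complex.sub_re] at this
    linarith

end Vale.Agent.P078.TypeIII.Regular
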