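import Vale.Agent.P078.Transfer.Words

/-!
# Rules on a graph model: the interface between the finite regular part and the operators

Seeds take `s + 1` values. A rule reads the seeds at finitely many translates of a point and
gives the point a colour and a deletion mark. Averages are over independent uniform seeds on a
finite set of points.
-/

namespace Vale.Agent.P078.TypeIII.Regular

open Vale.Agent.P078.Transfer

universe u

variable {K : Type u} [TopologicalSpace K]

/-- A locally constant rule reading finitely many seeds. -/
structure Rule (G : GraphModel K) (r : ℕ) where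
  s : ℕ
  N : ℕ
  wd : Fin N → List (Fin G.L)
  col : K → (Fin N → Fin (s + 1)) → Fin r
  del : K → (Fin N → Fin (s + 1)) → Bool
  col_lc : ∀ κ, IsLocallyConstant fun ψ => col ψ κ
  del_lc : ∀ κ, IsLocallyConstant fun ψ => del ψ κ

namespace Rule

variable {G : GraphModel K} {r : ℕ} (R : Rule G r)

/-- The colour of a point for given seeds. -/
def colAt (σ : K → Fin (R.s + 1)) (ψ : K) : Fin r := R.col ψ fun i => σ (act G.h (R.wd i) ψ)

/-- The deletion mark of a point for given seeds. -/
def delAt (σ : K → Fin (R.s + 1)) (ψ : K) : Bool := R.del ψ fun i => σ (act G.h (R.wd i) ψ)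

/-- The colouring with one more class for the deleted points. -/
def kept (σ : K → Fin (R.s + 1)) (ψ : K) : Fin (r + 1) :=
  if R.delAt σ ψ then Fin.last r else (R.colAt σ ψ).castSucc

/-- The points read from the points within distance `k` of `ψ`. -/
noncomputable def reach (k : ℕ) (ψ : K) : Finset K :=
  haveI := Classical.decEq K
  (words G.L k).toFinset.biUnion fun v =>
    Finset.univ.image fun i => act G.h (R.wd i) (act G.h v ψ)

end Rule

/-- The average over independent uniform seeds on the points of `O`. -/
noncomputable def avgSeeds {s : ℕ} (O : Finset K) (F : (K → Fin (s + 1)) → ℝ) : ℝ :=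
  haveI := Classical.decEq K
  (Fintype.card ({v // v ∈ O} → Fin (s + 1)) : ℝ)⁻¹ *
    ∑ τ : {v // v ∈ O} → Fin (s + 1), F fun v => if hv : v ∈ O then τ ⟨v, hv⟩ else 0

open scoped Classical in
/-- The two requirements on a rule. Every colour has probability exactly `1 / r` at every point,
and with probability at least `1 - δ` a point is kept and the diagonal of the power `2 m` of the
kernel pinched by the kept colouring is at most `(C / √r) ^ (2 m)` there. -/
structure Rule.Good {G : GraphModel K} {r : ℕ} (R : Rule G r) (C : ℝ) (m : ℕ) (δ : ℝ) : Prop where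
  unif : ∀ (ψ : K) (c : Fin r),
    avgSeeds (R.reach 0 ψ) (fun σ => if R.colAt σ ψ = c then 1 else 0) = (r : ℝ)⁻¹
  regular : ∀ ψ : K, avgSeeds (R.reach (2 * m) ψ) (fun σ =>
    if R.delAt σ ψ ∨ (C / Real.sqrt r) ^ (2 * m) < (G.wpow (R.kept σ) (2 * m) ψ ψ).re
    then 1 else 0) ≤ δ

/-- Good rules exist for every graph model. -/
def RuleGoal (C : ℝ) : Prop :=
  ∀ {K : Type u} [TopologicalSpace K] [CompactSpace K] [T2Space K] [TotallySeparatedSpace K]
    (G : GraphModel K) (r : ℕ), 9 ≤ r → ∀ (m : ℕ) (δ : ℝ), 0 < δ →
      ∃ R : Rule G r, R.Good C m δ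

end Vale.Agent.P078.TypeIII.Regular
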