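import Vale.Agent.P078.Sharp.Seed.Build
import Vale.Agent.P078.TypeIII.Regular.Char
import Vale.Agent.P078.TypeIII.Regular.Defs
import Vale.Agent.P078.TypeIII.Seeded.Normal

/-!
# Seeds on fine partitions

On a fine partition distinct translates of a character lie in distinct atoms, so the average over
the colourings of the atoms is the average over independent seeds on the points.
-/

namespace Vale.Agent.P078.TypeIII.Regular

open ComplexInnerProductSpace
open Filter Topology WeakDual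
open Vale.Agent.P078 Vale.Agent.P078.General Vale.Agent.P078.Finite
open Vale.Agent.P078.Transfer

universe u

variable {H : Type u} [NormedAddCommGroup H] [InnerProductSpace ℂ H] [CompleteSpace H]
variable {M : VonNeumannAlgebra H} {A : StarSubalgebra ℂ (H →L[ℂ] H)} {Ω : H}

/-- Averaging over maps through an injection is averaging over the pulled back maps. -/
lemma avg_comp_injective {I J S : Type*} [Fintype I] [Fintype J] [Fintype S] [DecidableEq I]
    [DecidableEq J] [Nonempty S] (ι : I → J) (hι : Function.Injective ι) (g : (I → S) → ℝ) :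
    (Fintype.card (J → S) : ℝ)⁻¹ * ∑ f : J → S, g (f ∘ ι)
      = (Fintype.card (I → S) : ℝ)⁻¹ * ∑ τ : I → S, g τ := by
  classical
  let e : (J → S) ≃ (I → S) × ({j : J // j ∉ Set.range ι} → S) :=
    (Equiv.piEquivPiSubtypeProd (fun j : J => j ∈ Set.range ι) (fun _ => S)).trans
      (Equiv.prodCongr ((Equiv.ofInjective ι hι).arrowCongr (Equiv.refl S)).symm (Equiv.refl _))
  have h1 : ∀ f : J → S, (e f).1 = f ∘ ι := fun f => rfl
  have h2 : ∑ f : J → S, g (f ∘ ι)
      = (Fintype.card ({j : J // j ∉ Set.range ι} → S) : ℝ) * ∑ τ : I → S, g τ := by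
    rw [Fintype.sum_equiv e (fun f => g (f ∘ ι)) (fun p => g p.1) (fun f => by simp only [h1]),
      Fintype.sum_prod_type, Finset.mul_sum]
    exact Finset.sum_congr rfl fun τ _ => by simp [nsmul_eq_mul]
  have h3 : Fintype.card (J → S)
      = Fintype.card (I → S) * Fintype.card ({j : J // j ∉ Set.range ι} → S) := by
    rw [Fintype.card_congr e, Fintype.card_prod]
  have hne : (Fintype.card ({j : J // j ∉ Set.range ι} → S) : ℝ) ≠ 0 :=
    Nat.cast_ne_zero.2 Fintype.card_ne_zero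
  rw [h2, h3, Nat.cast_mul, mul_inv, mul_assoc, inv_mul_cancel_left₀ hne]

variable (h : CentSetting M A Ω)
include h

/-- On fine partitions the atom of a moved character changes. -/
lemma eventually_atom_ne {v : H →L[ℂ] H} (hv : IsU M A v) :
    ∀ᶠ P in (uf h.masa : Filter (Part A)), ∀ χ : Chars A, hh h.masa v χ ≠ χ →
      atom h.masa P (hh h.masa v χ) ≠ atom h.masa P χ := by
  have hA := h.masa
  obtain ⟨f, p, ⟨hfA, hf⟩, hp, -, -, hsum, hvf, hsep⟩ := TypeIII.exists_split h hv.normaliser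
  rw [hv.sm] at hsum
  filter_upwards [eventually_all.2 fun i : Fin 3 =>
    eventually_finer hA (twoPart (hp i).1 (hp i).2)] with P hP χ hne heq
  obtain ⟨i, hi⟩ : ∃ i, evA χ (p i) = 1 := by
    by_contra! hcon
    have h0 : ∀ i, evA χ (p i) = 0 := fun i =>
      (evA_proj hA χ (hp i).1 (hp i).2).resolve_right (hcon i)
    have hf1 : evA χ f = 1 := by
      have e := congrArg (evA χ) hsum
      rw [evA_one, evA_add χ hfA (sum_mem fun i _ => (hp i).1),
        evA_finset_sum hA χ _ fun i _ => (hp i).1] at e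
      simpa [h0] using e
    have e1 : evA χ (v * f) = 0 := by
      have e := om_mul_right (hA := hA) χ hfA hv.mem
      rw [om_eq_zero_of_moved h hv hne, zero_mul, om_mem χ hvf] at e
      exact e
    have e2 : star (v * f) * (v * f) = f := by
      rw [star_mul, hf.isSelfAdjoint.star_eq, mul_assoc, ← mul_assoc (star v), hv.sm, one_mul,
        hf.isIdempotentElem.eq]
    have e3 := congrArg (evA χ) e2
    rw [evA_mul χ (star_mem hvf) hvf, e1, mul_zero, hf1] at e3
    exact zero_ne_one e3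
  have hφ : evA (hh hA v χ) (p i) = 0 := by
    have e := congrArg (evA χ) (hsep i)
    rw [evA_mul χ (hp i).1 (hv.conj _ (hp i).1), hi, one_mul, ← evA_hh hv χ (hp i).1,
      evA_of_mem χ (zero_mem A)] at e
    exact e.trans (map_zero χ)
  obtain ⟨k, hk⟩ := hP i (atom hA P χ)
  have hev : ∀ ξ : Chars A, atom hA P ξ = atom hA P χ →
      evA ξ ((twoPart (hp i).1 (hp i).2).e k) = 1 := fun ξ hξ => by
    have := congrArg (evA ξ) hk
    rwa [evA_mul ξ ((twoPart (hp i).1 (hp i).2).mem k) (P.mem _), evA_atom hA P ξ, if_pos hξ,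
      mul_one] at this
  have a1 := hev χ rfl
  have a2 := hev _ heq
  have hsub : ∀ ξ : Chars A, evA ξ (1 - p i) = 1 - evA ξ (p i) := fun ξ => by
    rw [eq_sub_iff_add_eq, ← evA_add ξ (sub_mem (one_mem A) (hp i).1) (hp i).1, sub_add_cancel,
      evA_one]
  fin_cases k
  · simp [twoPart, hφ] at a2
  · simp [twoPart, hsub, hi] at a1

/-- On fine partitions finitely many translates of every character are separated. -/
lemma eventually_separated {L : ℕ} (s : Fin L → (H →L[ℂ] H))
    (hs : ∀ i, s i ∈ M ∧ IsSelfAdjoint (s i) ∧ s i * s i = 1 ∧ ∀ a ∈ A, s i * a * s i ∈ A)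
    (W : Finset (List (Fin L))) :
    ∀ᶠ P in (uf h.masa : Filter (Part A)), ∀ ψ : Chars A, ∀ w ∈ W, ∀ w' ∈ W,
      atom h.masa P (hh h.masa (wordOp s w) ψ) = atom h.masa P (hh h.masa (wordOp s w') ψ) →
        hh h.masa (wordOp s w) ψ = hh h.masa (wordOp s w') ψ := by
  have hA := h.masa
  have hev : ∀ᶠ P in (uf hA : Filter (Part A)), ∀ q : W × W, ∀ χ : Chars A,
      hh hA (star (wordOp s q.1.1) * wordOp s q.2.1) χ ≠ χ →
      atom hA P (hh hA (star (wordOp s q.1.1) * wordOp s q.2.1) χ) ≠ atom hA P χ :=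
    eventually_all.2 fun q => eventually_atom_ne h ((isU_word s hs q.1.1).adj.mul (isU_word s hs q.2.1))
  filter_upwards [hev] with P hP ψ w hw w' hw' heq
  have hu := isU_word (M := M) (A := A) s hs w
  have hu' := isU_word (M := M) (A := A) s hs w'
  have e : hh hA (star (wordOp s w) * wordOp s w') (hh hA (wordOp s w) ψ)
      = hh hA (wordOp s w') ψ := by
    rw [hh_mul hu.adj hu', hh_star_hh hu]
  by_contra hne
  refine hP (⟨w, hw⟩, ⟨w', hw'⟩) (hh hA (wordOp s w) ψ) ?_ ?_
  · rw [e]; exact Ne.symm hne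
  · rw [e]; exact heq.symm

omit h in
/-- The coefficient of a rule. -/
noncomputable def ruleCoef (hA : IsMASAIn M A) {S : Type*} {r : ℕ} (Φ : Chars A → S → Fin r)
    (hΦ : ∀ κ, IsLocallyConstant fun ψ => Φ ψ κ) (κ : S) (c : Fin r) : H →L[ℂ] H :=
  ghat hA ⟨fun ψ => if Φ ψ κ = c then 1 else 0,
    ((hΦ κ).comp fun d => if d = c then (1 : ℂ) else 0).continuous⟩

omit h in
lemma seedCol_mem (hA : IsMASAIn M A) (P : Part A) {r S N : ℕ} {u : Fin N → H →L[ℂ] H}
    (hU : ∀ i, IsU M A (u i)) (Φ : Chars A → (Fin N → Fin S) → Fin r)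
    (hΦ : ∀ κ, IsLocallyConstant fun ψ => Φ ψ κ) (f : Fin P.n → Fin S) (c : Fin r) :
    Seeded.seedCol P u (ruleCoef hA Φ hΦ) f c ∈ A :=
  sum_mem fun κ _ => mul_mem (ghat_mem hA _)
    (ofFn_prod_mem fun i => (hU i).conj _ ((P.piece_props f).1 _).1)

omit h in
/-- The value of a seeded colour piece at a character. -/
lemma evA_seedCol (hA : IsMASAIn M A) (P : Part A) {r S N : ℕ} {u : Fin N → H →L[ℂ] H}
    (hU : ∀ i, IsU M A (u i)) (Φ : Chars A → (Fin N → Fin S) → Fin r)
    (hΦ : ∀ κ, IsLocallyConstant fun ψ => Φ ψ κ) (f : Fin P.n → Fin S) (c : Fin r) (ψ : Chars A) :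
    evA ψ (Seeded.seedCol P u (ruleCoef hA Φ hΦ) f c)
      = if Φ ψ (fun i => f (atom hA P (hh hA (u i) ψ))) = c then 1 else 0 := by
  classical
  have hmem : ∀ (κ : Fin N → Fin S) i, u i * P.piece f (κ i) * star (u i) ∈ A :=
    fun κ i => (hU i).conj _ ((P.piece_props f).1 _).1
  have hcm : ∀ κ, ruleCoef hA Φ hΦ κ c ∈ A := fun κ => ghat_mem hA _
  have hco : ∀ κ, evA ψ (ruleCoef hA Φ hΦ κ c) = if Φ ψ κ = c then 1 else 0 := fun κ =>
    evA_ghat hA _ ψ
  simp only [Seeded.seedCol, Sharp.patProd]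
  rw [evA_finset_sum hA ψ _ fun κ _ => mul_mem (hcm κ) (ofFn_prod_mem (hmem κ))]
  rw [Finset.sum_eq_single (fun i => f (atom hA P (hh hA (u i) ψ)))]
  · rw [evA_mul ψ (hcm _) (ofFn_prod_mem (hmem _)), evA_prod ψ (hmem _),
      Finset.prod_eq_one fun i _ => ?_, mul_one, hco]
    rw [← evA_hh (hA := hA) (hU i) ψ ((P.piece_props f).1 _).1, evA_piece hA, if_pos rfl]
  · intro κ _ hne
    obtain ⟨i, hi⟩ := Function.ne_iff.1 hne
    rw [evA_mul ψ (hcm _) (ofFn_prod_mem (hmem κ)), evA_prod ψ (hmem κ),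
      Finset.prod_eq_zero (Finset.mem_univ i) ?_, mul_zero]
    rw [← evA_hh (hA := hA) (hU i) ψ ((P.piece_props f).1 _).1, evA_piece hA, if_neg (Ne.symm hi)]
  · exact fun h => absurd (Finset.mem_univ _) h

omit h in
/-- Pieces with indicator values form a partition. -/
lemma pieces_props (hA : IsMASAIn M A) {r : ℕ} (col : Chars A → Fin r)
    (p : Fin r → (H →L[ℂ] H)) (hpA : ∀ c, p c ∈ A)
    (hev : ∀ c ψ, evA ψ (p c) = if col ψ = c then 1 else 0) :
    (∀ c, IsStarProjection (p c)) ∧ (∀ c d, c ≠ d → p c * p d = 0) ∧ ∑ c, p c = 1 := by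
  refine ⟨fun c => ⟨evA_inj hA (mul_mem (hpA c) (hpA c)) (hpA c) fun ψ => ?_,
      evA_inj hA (star_mem (hpA c)) (hpA c) fun ψ => ?_⟩,
    fun c d hcd => evA_inj hA (mul_mem (hpA c) (hpA d)) (zero_mem A) fun ψ => ?_,
    evA_inj hA (sum_mem fun c _ => hpA c) (one_mem A) fun ψ => ?_⟩
  · rw [evA_mul ψ (hpA c) (hpA c), hev]; split_ifs <;> simp
  · rw [evA_star hA ψ (hpA c), hev]; split_ifs <;> simp
  · rw [evA_mul ψ (hpA c) (hpA d), hev, hev, evA_of_mem ψ (zero_mem A),
      show (⟨0, zero_mem A⟩ : A) = 0 from rfl, map_zero]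
    rcases eq_or_ne (col ψ) c with e | e
    · rw [if_neg fun e' => hcd (e.symm.trans e'), mul_zero]
    · rw [if_neg e, zero_mul]
  · rw [evA_finset_sum hA ψ _ fun c _ => hpA c, evA_one]
    simp [hev]

end Vale.Agent.P078.TypeIII.Regular
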