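import Vale.Agent.P078.Assembly.Trunc
import Vale.Agent.P078.TypeIII.Regular.Seeds

/-!
# The graph model of an element of the span of normalising symmetries, without a trace
-/

namespace Vale.Agent.P078.TypeIII.Regular

open ComplexInnerProductSpace
open Filter Topology WeakDual
open scoped Matrix
open Vale.Agent.P078 Vale.Agent.P078.General Vale.Agent.P078.Finite Vale.Agent.P078.Mss
open Vale.Agent.P078.Transfer

universe u

variable {H : Type u} [NormedAddCommGroup H] [InnerProductSpace ℂ H] [CompleteSpace H]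
variable {M : VonNeumannAlgebra H} {A : StarSubalgebra ℂ (H →L[ℂ] H)} {Ω : H}

variable (h : CentSetting M A Ω) {L : ℕ} (s b : Fin L → (H →L[ℂ] H))
  (hs : ∀ i, s i ∈ M ∧ IsSelfAdjoint (s i) ∧ s i * s i = 1 ∧ ∀ a ∈ A, s i * a * s i ∈ A)
  (hb : ∀ i, b i ∈ A) {x : H →L[ℂ] H} (hx : x = ∑ i, b i * s i) (hxs : IsSelfAdjoint x)
  (hx1 : ‖x‖ ≤ 1) (hx0 : plim h.masa x = 0)

include h hs hb hx in
lemma x_mem : x ∈ M :=
  hx ▸ sum_mem (fun i _ => mul_mem (h.masa.mem_M (hb i)) (hs i).1)

include h hs hb hx in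
lemma X_x_apply (χ φ : Chars A) :
    X h.masa x χ φ = ∑ i, evA χ (b i) * X h.masa (s i) χ φ := by
  rw [hx, X_sum _ (fun i _ => mul_mem (h.masa.mem_M (hb i)) (hs i).1)]
  exact Finset.sum_congr rfl (fun i _ => X_mem_mul (hb i) (hs i).1 χ φ)

include h hs hb hx hxs hx1 hx0 in
/-- The model. -/
noncomputable def model : GraphModel (Chars A) where
  L := L
  h i := hh h.masa (s i)
  h_cont i := continuous_hh _
  h_inv i ψ := by
    rw [← hh_mul (isU_s s hs i) (isU_s s hs i), (hs i).2.2.1, hh_one]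
  fix_open w w' := by
    have hu := isU_word s hs w
    have hu' := isU_word s hs w'
    obtain ⟨f, hfA, hf, -, -, hiff⟩ := exists_fixed h (hu.mul hu'.adj)
    have e : {ψ : Chars A | act (fun i => hh h.masa (s i)) w ψ
        = act (fun i => hh h.masa (s i)) w' ψ} = {ψ | evA ψ f = 0}ᶜ := by
      ext ψ
      simp only [Set.mem_ofPred_eq, Set.mem_compl_iff, act_word s hs, ← ne_eq]
      rw [show (evA ψ f ≠ 0) ↔ evA ψ f = 1 by
        rcases evA_proj h.masa ψ hfA hf with h1 | h1 <;> simp [h1], ← hiff ψ, hh_mul hu hu'.adj]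
      exact ⟨fun e => by rw [e, hh_star_hh hu'], fun e => by
        conv_rhs => rw [← e]
        rw [hh_hh_star hu']⟩
    rw [e]
    exact (isClosed_eq (continuous_evA f) continuous_const).isOpen_compl
  x := Matrix.of (X h.masa x)
  x_diag ψ := by
    rw [Matrix.of_apply, X_diag h (x_mem h s b hs hb hx), om, hx0, evA_of_mem ψ (zero_mem A)]
    exact map_zero ψ
  x_band ψ φ hne := by
    by_contra! hcon
    refine hne ?_
    rw [Matrix.of_apply, X_x_apply h s b hs hb hx]
    exact Finset.sum_eq_zero (fun i _ => by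
      rw [X_unitary_eq_zero h (isU_s s hs i) (hcon i), mul_zero])
  x_bound S := X_numBound h (x_mem h s b hs hb hx) hxs hx1 S
  x_cont m w := by
    refine ⟨fun ψ i => starRingEnd ℂ (phase h.masa (wordOp s (w i)) ψ), fun ψ i => ?_,
      fun i j => ?_⟩
    · have h1 := phase_norm h (isU_word s hs (w i)) ψ
      have h2 := congrArg norm h1
      rw [norm_mul, RCLike.norm_conj, norm_one, ← sq] at h2
      rw [RCLike.norm_conj]
      exact (sq_eq_one_iff.1 h2).resolve_right (by linarith [norm_nonneg (phase h.masa (wordOp s (w i)) ψ)])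
    · refine (continuous_evA (plim h.masa (wordOp s (w i) * x * star (wordOp s (w j))))).congr
        (fun ψ => ?_)
      rw [act_word s hs, act_word s hs, Matrix.of_apply,
        X_moved h (isU_word s hs (w i)) (isU_word s hs (w j)) (x_mem h s b hs hb hx),
        Complex.conj_conj]
      have h1 := phase_norm h (isU_word s hs (w i)) ψ
      have h2 := phase_norm h (isU_word s hs (w j)) ψ
      change om h.masa ψ _ = _
      linear_combination (-(starRingEnd ℂ (phase h.masa (wordOp s (w j)) ψ)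
        * phase h.masa (wordOp s (w j)) ψ
        * om h.masa ψ (wordOp s (w i) * x * star (wordOp s (w j))))) * h1
        - om h.masa ψ (wordOp s (w i) * x * star (wordOp s (w j))) * h2
  T := 0
  T_pos _ _ := le_rfl
  T_inv _ _ := rfl

include h hs hb hx hxs hx1 hx0 in
/-- The diagonal of a power of the pinched kernel is the expectation of the pinched operator. -/
theorem evA_plim_pow {r : ℕ} (col : Chars A → Fin r) (p : Fin r → (H →L[ℂ] H))
    (hpA : ∀ c, p c ∈ A) (hev : ∀ c ψ, evA ψ (p c) = if col ψ = c then 1 else 0)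
    (n : ℕ) (ψ : Chars A) :
    evA ψ (plim h.masa ((∑ c, p c * x * p c) ^ n))
      = (model h s b hs hb hx hxs hx1 hx0).wpow col n ψ ψ := by
  classical
  have hA := h.masa
  have hpM : ∀ c, p c ∈ M := fun c => hA.mem_M (hpA c)
  set G := model h s b hs hb hx hxs hx1 hx0 with hG
  have hxM : x ∈ M := x_mem h s b hs hb hx
  set y := ∑ c, p c * x * p c with hy
  have hyM : y ∈ M := sum_mem (fun c _ => mul_mem (mul_mem (hpM c) hxM) (hpM c))
  have hmulX : ∀ z ∈ M, ∀ χ φ, X hA (x * z) χ φ
      = ∑ θ ∈ G.nbhd χ, X hA x χ θ * X hA z θ φ := by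
    intro z hz χ φ
    have hnb : ∀ i, hh hA (s i) χ ∈ G.nbhd χ := fun i => by
      simp only [GraphModel.nbhd, Finset.mem_insert, Finset.mem_image, Finset.mem_univ, true_and]
      exact Or.inr ⟨i, rfl⟩
    have e1 : x * z = ∑ i, b i * (s i * z) := by
      rw [hx, Finset.sum_mul]
      simp only [mul_assoc]
    rw [e1, X_sum _ (fun i _ => mul_mem (hA.mem_M (hb i)) (mul_mem (hs i).1 hz))]
    simp only [X_x_apply h s b hs hb hx, Finset.sum_mul]
    rw [Finset.sum_comm (s := G.nbhd χ)]
    refine Finset.sum_congr rfl (fun i _ => ?_)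
    rw [X_mem_mul (hb i) (mul_mem (hs i).1 hz), X_unitary_mul h (isU_s s hs i) hz,
      Finset.sum_eq_single_of_mem _ (hnb i) (fun θ _ hne => by
        rw [X_unitary_eq_zero h (isU_s s hs i) (Ne.symm hne), mul_zero, zero_mul]), mul_assoc]
  have hpow : ∀ (k : ℕ) χ φ, X hA (y ^ k) χ φ = G.wpow col k χ φ := by
    intro k
    induction k with
    | zero =>
      intro χ φ
      rw [pow_zero, X_one h, GraphModel.wpow]
      split_ifs <;> rfl
    | succ k ih =>
      intro χ φ
      have hk : y ^ k ∈ M := pow_mem hyM k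
      have hpk : ∀ c, p c * y ^ k ∈ M := fun c => mul_mem (hpM c) hk
      have e : y ^ (k + 1) = ∑ c, p c * (x * (p c * y ^ k)) := by
        rw [pow_succ', hy, Finset.sum_mul]
        simp only [mul_assoc]
      rw [e, X_sum _ (fun c _ => mul_mem (hpM c) (mul_mem hxM (hpk c))), GraphModel.wpow]
      rw [Finset.sum_congr rfl (fun c _ => X_mem_mul (hpA c) (mul_mem hxM (hpk c)) χ φ)]
      simp only [hev, ite_mul, one_mul, zero_mul, Finset.sum_ite_eq, Finset.mem_univ, if_true]
      rw [hmulX _ (hpk _)]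
      refine Finset.sum_congr rfl (fun θ _ => ?_)
      rw [X_mem_mul (hpA _) hk, hev, ih]
      split_ifs with h1 h2 h3
      · simp [hG, model]
      · exact absurd h1.symm h2
      · exact absurd h3.symm h1
      · simp
  rw [← hpow n ψ ψ, X_diag h (pow_mem hyM n)]
  rfl

include h hs hb hx hxs hx1 hx0 in
/-- The diagonal of a power of the pinched kernel is at most one. -/
lemma wpow_diag_le_one {r : ℕ} (col : Chars A → Fin r) (p : Fin r → (H →L[ℂ] H))
    (hpA : ∀ c, p c ∈ A) (hev : ∀ c ψ, evA ψ (p c) = if col ψ = c then 1 else 0)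
    (n : ℕ) (ψ : Chars A) :
    ((model h s b hs hb hx hxs hx1 hx0).wpow col n ψ ψ).re ≤ 1 := by
  rw [← evA_plim_pow h s b hs hb hx hxs hx1 hx0 col p hpA hev n ψ]
  obtain ⟨hproj, horth, htot⟩ := pieces_props h.masa col p hpA hev
  refine (Complex.re_le_norm _).trans ((evA_norm_le h.masa ψ _).trans
    ((plim_norm_le h.masa _).trans ?_))
  set y := ∑ c, p c * x * p c with hy
  have hy1 : ‖y‖ ≤ 1 :=
    (norm_pinch_le (partOf p (fun c => ⟨hpA c, hproj c⟩) horth htot) x).trans hx1
  rcases Nat.eq_zero_or_pos n with rfl | hn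
  · rw [pow_zero]
    exact (IsStarProjection.one (H →L[ℂ] H)).norm_le
  · exact (norm_pow_le' y hn).trans (pow_le_one₀ (norm_nonneg _) hy1)

include h in
/-- An element of `A` whose values have real part at most `c` has mean at most `c`. -/
lemma re_inner_le_of_evA {a : H →L[ℂ] H} (ha : a ∈ A) {c : ℝ}
    (hle : ∀ ψ : Chars A, (evA ψ a).re ≤ c) : (⟪Ω, a Ω⟫).re ≤ c * ‖Ω‖ ^ 2 := by
  have hA := h.masa
  have hc : Continuous (fun ψ : Chars A => ((Real.sqrt (c - (evA ψ a).re) : ℝ) : ℂ)) :=
    Complex.continuous_ofReal.comp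
      (Real.continuous_sqrt.comp (continuous_const.sub (Complex.continuous_re.comp (continuous_evA a))))
  set d := ghat hA ⟨_, hc⟩ with hd
  have hdA : d ∈ A := ghat_mem _ _
  have h1A : ((c : ℂ) • (1 : H →L[ℂ] H)) ∈ A := A.toSubalgebra.smul_mem (one_mem A) _
  have h2A : (1 / 2 : ℂ) • (a + star a) ∈ A :=
    A.toSubalgebra.smul_mem (add_mem ha (star_mem ha) : a + star a ∈ A) _
  have e : (c : ℂ) • (1 : H →L[ℂ] H) = star d * d + (1 / 2 : ℂ) • (a + star a) := by
    refine evA_inj hA h1A (add_mem (mul_mem (star_mem hdA) hdA) h2A) (fun ψ => ?_)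
    rw [evA_add ψ (mul_mem (star_mem hdA) hdA) h2A, evA_mul ψ (star_mem hdA) hdA,
      evA_star hA ψ hdA, hd, evA_ghat, evA_smul ψ _ (one_mem A), evA_one,
      evA_smul ψ _ (add_mem ha (star_mem ha)), evA_add ψ ha (star_mem ha), evA_star hA ψ ha,
      Complex.add_conj]
    simp only [ContinuousMap.coe_mk, Complex.conj_ofReal, ← Complex.ofReal_mul,
      Real.mul_self_sqrt (sub_nonneg.2 (hle ψ))]
    push_cast
    ring
  have e2 := congrArg (fun T : H →L[ℂ] H => (⟪Ω, T Ω⟫).re) e
  simp only [add_apply, smul_apply, one_apply_eq_self, inner_add_right, inner_smul_right,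
    Complex.add_re, Complex.re_ofReal_mul] at e2
  have e3 : (⟪Ω, star a Ω⟫).re = (⟪Ω, a Ω⟫).re := by
    rw [ContinuousLinearMap.star_eq_adjoint, ContinuousLinearMap.adjoint_inner_right,
      re_inner_symm]
  have e4 : 0 ≤ (⟪Ω, (star d * d) Ω⟫).re := by
    rw [← inner_apply]
    exact inner_self_nonneg (𝕜 := ℂ)
  have e5 : (⟪Ω, Ω⟫).re = ‖Ω‖ ^ 2 := by
    rw [@norm_sq_eq_re_inner ℂ]
    rfl
  rw [e5] at e2
  simp [Complex.mul_re, e3] at e2
  rw [mul_apply_eq_comp] at e4
  linarith

end Vale.Agent.P078.TypeIII.Regular
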