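import Vale.Agent.P078.Sharp.Mix.Main
import Vale.Agent.P078.TypeIII.Regular.Model

/-!
# Averaged moments of a rule on fine partitions
-/

namespace Vale.Agent.P078.TypeIII.Regular

open ComplexInnerProductSpace
open Filter Topology WeakDual
open Vale.Agent.P078 Vale.Agent.P078.General Vale.Agent.P078.Finite
open Vale.Agent.P078.Transfer

universe u

lemma mem_words_of_length_le {L : ℕ} : ∀ {n : ℕ} {w : List (Fin L)}, w.length ≤ n → w ∈ words L n
  | 0, w, hw => by
    rw [List.eq_nil_of_length_eq_zero (Nat.le_zero.1 hw)]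
    simp [words]
  | n + 1, w, hw => by
    rw [words, List.mem_append]
    rcases List.eq_nil_or_concat w with rfl | ⟨v, i, rfl⟩
    · exact Or.inl (mem_words_of_length_le (by simp))
    · refine Or.inr (List.mem_flatMap.2 ⟨v, mem_words_of_length_le (by simpa using hw), ?_⟩)
      exact List.mem_map.2 ⟨i, List.mem_finRange i, by simp [List.concat_eq_append]⟩

lemma length_le_of_mem_words {L : ℕ} : ∀ {n : ℕ} {w : List (Fin L)}, w ∈ words L n → w.length ≤ n
  | 0, w, hw => by simp [words] at hw; simp [hw]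
  | n + 1, w, hw => by
    rw [words, List.mem_append, List.mem_flatMap] at hw
    rcases hw with hw | ⟨v, hv, hw⟩
    · exact Nat.le_succ_of_le (length_le_of_mem_words hw)
    · obtain ⟨i, -, rfl⟩ := List.mem_map.1 hw
      simpa using length_le_of_mem_words hv

section graph

variable {K : Type u} [TopologicalSpace K] (G : GraphModel K) {r : ℕ}

lemma wpow_congr {col col' : K → Fin r} : ∀ (n : ℕ) (ψ φ : K),
    (∀ w : List (Fin G.L), w.length ≤ n → col (act G.h w ψ) = col' (act G.h w ψ)) →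
    G.wpow col n ψ φ = G.wpow col' n ψ φ
  | 0, _, _, _ => rfl
  | n + 1, ψ, φ, hc => by
    rw [GraphModel.wpow, GraphModel.wpow]
    refine Finset.sum_congr rfl fun χ hχ => ?_
    let _ := Classical.decEq K
    rcases (mem_nbhd G).1 hχ with rfl | ⟨i, rfl⟩
    · rw [wpow_congr n χ φ fun w hw => hc w (Nat.le_succ_of_le hw)]
      simp
    · have h0 : col ψ = col' ψ := hc [] (Nat.zero_le _)
      have h1 : col (G.h i ψ) = col' (G.h i ψ) := hc [i] (by simp)
      rw [h0, h1, wpow_congr n (G.h i ψ) φ fun w hw => hc (i :: w) (by simp; omega)]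

variable (R : Rule G r)

lemma mem_reach {k : ℕ} {ψ : K} {w : List (Fin G.L)} (hw : w.length ≤ k) (i : Fin R.N) :
    act G.h (R.wd i) (act G.h w ψ) ∈ R.reach k ψ := by
  let _ := Classical.decEq K
  exact Finset.mem_biUnion.2
    ⟨w, List.mem_toFinset.2 (mem_words_of_length_le hw), Finset.mem_image.2 ⟨i, Finset.mem_univ _, rfl⟩⟩

lemma exists_of_mem_reach {k : ℕ} {ψ v : K} (hv : v ∈ R.reach k ψ) :
    ∃ w ∈ words G.L k, ∃ i, act G.h (R.wd i) (act G.h w ψ) = v := by
  let _ := Classical.decEq K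
  obtain ⟨w, hw, hv⟩ := Finset.mem_biUnion.1 hv
  obtain ⟨i, -, e⟩ := Finset.mem_image.1 hv
  exact ⟨w, List.mem_toFinset.1 hw, i, e⟩

lemma seeds_congr {k : ℕ} {ψ : K} {σ σ' : K → Fin (R.s + 1)}
    (hσ : ∀ v ∈ R.reach k ψ, σ v = σ' v) {w : List (Fin G.L)} (hw : w.length ≤ k) :
    R.colAt σ (act G.h w ψ) = R.colAt σ' (act G.h w ψ) ∧
      R.delAt σ (act G.h w ψ) = R.delAt σ' (act G.h w ψ) ∧
        R.kept σ (act G.h w ψ) = R.kept σ' (act G.h w ψ) := by
  have e : (fun i => σ (act G.h (R.wd i) (act G.h w ψ)))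
      = fun i => σ' (act G.h (R.wd i) (act G.h w ψ)) :=
    funext fun i => hσ _ (mem_reach G R hw i)
  exact ⟨congrArg (R.col _) e, congrArg (R.del _) e,
    congrArg (fun κ => if R.del _ κ then Fin.last r else (R.col _ κ).castSucc) e⟩

open scoped Classical in
/-- The event that a point is deleted or has a large diagonal only depends on the reached seeds. -/
lemma bad_congr {m : ℕ} {ψ : K} {σ σ' : K → Fin (R.s + 1)} (t : ℝ)
    (hσ : ∀ v ∈ R.reach m ψ, σ v = σ' v) :
    (if R.delAt σ ψ ∨ t < (G.wpow (R.kept σ) m ψ ψ).re then (1 : ℝ) else 0)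
      = if R.delAt σ' ψ ∨ t < (G.wpow (R.kept σ') m ψ ψ).re then 1 else 0 := by
  have h1 := (seeds_congr G R hσ (w := []) (Nat.zero_le _)).2.1
  have h2 := wpow_congr G m ψ ψ fun w hw => (seeds_congr G R hσ hw).2.2
  simp only [act] at h1
  simp only [h1, h2]

end graph

variable {H : Type u} [NormedAddCommGroup H] [InnerProductSpace ℂ H] [CompleteSpace H]
variable {M : VonNeumannAlgebra H} {A : StarSubalgebra ℂ (H →L[ℂ] H)} {Ω : H}

/-- Averaging over colourings of separating atoms is averaging over the seeds of the points. -/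
lemma avg_atom_eq (hA : IsMASAIn M A) (P : Part A) {s : ℕ} (O : Finset (Chars A))
    (hsep : ∀ v ∈ O, ∀ w ∈ O, atom hA P v = atom hA P w → v = w)
    (F : (Chars A → Fin (s + 1)) → ℝ)
    (hF : ∀ σ σ', (∀ v ∈ O, σ v = σ' v) → F σ = F σ') :
    (Fintype.card (Fin P.n → Fin (s + 1)) : ℝ)⁻¹
        * ∑ f : Fin P.n → Fin (s + 1), F (fun χ => f (atom hA P χ))
      = avgSeeds O F := by
  let _ := Classical.decEq (Chars A)
  let ι : {v // v ∈ O} → Fin P.n := fun v => atom hA P v.1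
  have hι : Function.Injective ι := fun v w e => Subtype.ext (hsep _ v.2 _ w.2 e)
  unfold avgSeeds
  rw [← avg_comp_injective ι hι
    (fun τ => F fun v => if hv : v ∈ O then τ ⟨v, hv⟩ else (0 : Fin (s + 1)))]
  congr 1
  exact Finset.sum_congr rfl fun f _ => hF _ _ fun v hv => by simp [hv, ι]

variable (h : CentSetting M A Ω) {L : ℕ} (s b : Fin L → (H →L[ℂ] H))
  (hs : ∀ i, s i ∈ M ∧ IsSelfAdjoint (s i) ∧ s i * s i = 1 ∧ ∀ a ∈ A, s i * a * s i ∈ A)
  (hb : ∀ i, b i ∈ A) {x : H →L[ℂ] H} (hx : x = ∑ i, b i * s i) (hxs : IsSelfAdjoint x)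
  (hx1 : ‖x‖ ≤ 1) (hx0 : plim h.masa x = 0)

include h in
/-- The mean of an average is bounded by the averages of the values. -/
lemma avg_re_inner_le {ι : Type*} [Fintype ι] [Nonempty ι] (a : ι → (H →L[ℂ] H))
    (ha : ∀ i, a i ∈ A) {c : ℝ}
    (hc : ∀ ψ : Chars A, (Fintype.card ι : ℝ)⁻¹ * ∑ i, (evA ψ (a i)).re ≤ c) :
    (Fintype.card ι : ℝ)⁻¹ * ∑ i, (⟪Ω, a i Ω⟫).re ≤ c * ‖Ω‖ ^ 2 := by
  have hcard0 : (0 : ℝ) < Fintype.card ι := Nat.cast_pos.2 Fintype.card_pos
  have h1 := re_inner_le_of_evA h (sum_mem fun i (_ : i ∈ Finset.univ) => ha i)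
    (c := (Fintype.card ι : ℝ) * c) fun ψ => by
      rw [evA_finset_sum h.masa ψ _ fun i _ => ha i, Complex.re_sum]
      exact (inv_mul_le_iff₀ hcard0).1 (hc ψ)
  rw [_root_.sum_apply, inner_sum, Complex.re_sum] at h1
  rw [inv_mul_le_iff₀ hcard0]
  linarith [mul_assoc (Fintype.card ι : ℝ) c (‖Ω‖ ^ 2)]

include h in
/-- Cutting away the deleted class does not increase a power at the vector. -/
lemma norm_kept_pow_le {r : ℕ} {q : Fin r → (H →L[ℂ] H)} {p : Fin (r + 1) → (H →L[ℂ] H)}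
    (hqA : ∀ c, q c ∈ A) (hpA : ∀ c, p c ∈ A) (hp : ∀ c, IsStarProjection (p c))
    (ho : ∀ c d, c ≠ d → p c * p d = 0)
    (hk : ∀ c : Fin r, q c * (1 - p (Fin.last r)) = p c.castSucc) (y : H →L[ℂ] H) (m : ℕ) :
    ‖(((1 - p (Fin.last r)) * (∑ c, q c * y * q c) * (1 - p (Fin.last r))) ^ (m + 1)) Ω‖ ^ 2
      ≤ ‖((∑ c, p c * y * p c) ^ (m + 1)) Ω‖ ^ 2 := by
  have hA := h.masa
  have heA : (1 - p (Fin.last r)) ∈ A := sub_mem (one_mem A) (hpA _)
  have hS : (1 - p (Fin.last r)) * (∑ c, q c * y * q c) * (1 - p (Fin.last r))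
      = ∑ c : Fin r, p c.castSucc * y * p c.castSucc := by
    rw [Finset.mul_sum, Finset.sum_mul]
    refine Finset.sum_congr rfl fun c _ => ?_
    rw [← hk c]
    conv_rhs => arg 1; arg 1; rw [hA.comm (hqA c) heA]
    simp only [mul_assoc]
  have ho' : ∀ i j : Fin r, i ≠ j → p i.castSucc * p j.castSucc = 0 := fun i j hij =>
    ho _ _ fun e => hij (Fin.castSucc_injective _ e)
  rw [hS, Sharp.pow_sum_orth ho', Sharp.pow_sum_orth ho, _root_.sum_apply, _root_.sum_apply]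
  have hsplit : ∀ c, ((p c * y * p c) ^ (m + 1)) Ω = p c (y (p c (((p c * y * p c) ^ m) Ω))) :=
    fun c => by rw [pow_succ']; rfl
  simp only [hsplit]
  rw [norm_sq_sum_left Finset.univ p hp ho,
    norm_sq_sum_left Finset.univ (fun c : Fin r => p c.castSucc) (fun c => hp _) ho',
    Fin.sum_univ_castSucc]
  exact le_add_of_nonneg_right (sq_nonneg _)

include h hs hb hx hxs hx1 hx0 in
/-- The average moment of the pinched operator is the average diagonal of the pinched kernel. -/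
lemma avg_moment_le {ι : Type*} [Fintype ι] [Nonempty ι] {r : ℕ} (col : ι → Chars A → Fin r)
    (p : ι → Fin r → (H →L[ℂ] H)) (hpA : ∀ i c, p i c ∈ A)
    (hev : ∀ i c ψ, evA ψ (p i c) = if col i ψ = c then 1 else 0) (bad : ι → Chars A → ℝ)
    {t δ : ℝ} (n : ℕ)
    (hval : ∀ i ψ, ((model h s b hs hb hx hxs hx1 hx0).wpow (col i) (2 * n) ψ ψ).re ≤ t + bad i ψ)
    (hbad : ∀ ψ, (Fintype.card ι : ℝ)⁻¹ * ∑ i, bad i ψ ≤ δ) :
    (Fintype.card ι : ℝ)⁻¹ * ∑ i, ‖((∑ c, p i c * x * p i c) ^ n) Ω‖ ^ 2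
      ≤ (t + δ) * ‖Ω‖ ^ 2 := by
  have hA := h.masa
  have hxM : x ∈ M := x_mem h s b hs hb hx
  have hyM : ∀ i, (∑ c, p i c * x * p i c) ∈ M := fun i =>
    sum_mem fun c _ => mul_mem (mul_mem (hA.mem_M (hpA i c)) hxM) (hA.mem_M (hpA i c))
  have hys : ∀ i, IsSelfAdjoint (∑ c, p i c * x * p i c) := fun i => by
    obtain ⟨h1, h2, h3⟩ := pieces_props hA (col i) (p i) (hpA i) (hev i)
    exact pinch_isSelfAdjoint (partOf (p i) (fun c => ⟨hpA i c, h1 c⟩) h2 h3) hxs
  have hy2 : ∀ i, ‖((∑ c, p i c * x * p i c) ^ n) Ω‖ ^ 2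
      = (⟪Ω, plim hA ((∑ c, p i c * x * p i c) ^ (2 * n)) Ω⟫).re := fun i => by
    rw [TypeIII.tau_plim h (pow_mem (hyM i) _), @norm_sq_eq_re_inner ℂ, inner_apply,
      ((hys i).pow _).star_eq, ← pow_add, ← two_mul]
    rfl
  simp only [hy2]
  refine avg_re_inner_le h _ (fun i => plim_mem hA (pow_mem (hyM i) _)) fun ψ => ?_
  have hcard0 : (0 : ℝ) < Fintype.card ι := Nat.cast_pos.2 Fintype.card_pos
  refine (mul_le_mul_of_nonneg_left (Finset.sum_le_sum fun i _ =>
    (show (evA ψ (plim hA ((∑ c, p i c * x * p i c) ^ (2 * n)))).re ≤ t + bad i ψ by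
      rw [evA_plim_pow h s b hs hb hx hxs hx1 hx0 (col i) (p i) (hpA i) (hev i)]
      exact hval i ψ)) (inv_nonneg.2 hcard0.le)).trans ?_
  rw [Finset.sum_add_distrib, mul_add, Finset.sum_const, Finset.card_univ, nsmul_eq_mul,
    inv_mul_cancel_left₀ hcard0.ne']
  linarith [hbad ψ]

include h hs hb hx hxs hx1 hx0 in
/-- **A good rule on fine partitions.** A good rule gives seeded pieces with uniform mean and a
projection `e`, both with small average moments. -/
theorem exists_seeded_pieces {r : ℕ} (R : Rule (model h s b hs hb hx hxs hx1 hx0) r) {C δ : ℝ}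
    (hC : 0 ≤ C) {m : ℕ} (hgood : R.Good C (m + 1) δ) :
    ∃ (S N : ℕ) (u : Fin N → H →L[ℂ] H)
      (coef : (Fin N → Fin (S + 1)) → Fin r → H →L[ℂ] H)
      (e : ∀ P : Part A, (Fin P.n → Fin (S + 1)) → H →L[ℂ] H),
      (∀ i, IsNormaliser M A (u i)) ∧ (∀ κ c, coef κ c ∈ A) ∧
      (∀ (P : Part A) f c, Seeded.seedCol P u coef f c ∈ A ∧ IsStarProjection (Seeded.seedCol P u coef f c)) ∧
      (∀ (P : Part A) f c d, c ≠ d → Seeded.seedCol P u coef f c * Seeded.seedCol P u coef f d = 0) ∧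
      (∀ (P : Part A) f, ∑ c, Seeded.seedCol P u coef f c = 1) ∧
      (∀ (P : Part A) f, e P f ∈ A ∧ IsStarProjection (e P f)) ∧
      ∀ᶠ P in (uf h.masa : Filter (Part A)),
        (∀ c, ∑ f : Fin P.n → Fin (S + 1), Seeded.seedCol P u coef f c
          = ((Fintype.card (Fin P.n → Fin (S + 1)) : ℂ) / r) • 1) ∧
        (Fintype.card (Fin P.n → Fin (S + 1)) : ℝ)⁻¹
            * ∑ f : Fin P.n → Fin (S + 1), ‖e P f Ω‖ ^ 2 ≤ δ * ‖Ω‖ ^ 2 ∧
        (Fintype.card (Fin P.n → Fin (S + 1)) : ℝ)⁻¹ * ∑ f : Fin P.n → Fin (S + 1),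
            ‖(((1 - e P f) * (∑ c, Seeded.seedCol P u coef f c * x * Seeded.seedCol P u coef f c)
              * (1 - e P f)) ^ (m + 1)) Ω‖ ^ 2
          ≤ ((C / Real.sqrt r) ^ (2 * (m + 1)) + δ) * ‖Ω‖ ^ 2 := by
  classical
  have hA := h.masa
  let G := model h s b hs hb hx hxs hx1 hx0
  let wd : Fin R.N → List (Fin L) := R.wd
  have hxM : x ∈ M := x_mem h s b hs hb hx
  let u : Fin R.N → (H →L[ℂ] H) := fun i => wordOp s (R.wd i)
  have hU : ∀ i, IsU M A (u i) := fun i => isU_word s hs (R.wd i)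
  let Φk : Chars A → (Fin R.N → Fin (R.s + 1)) → Fin (r + 1) := fun ψ κ =>
    if R.del ψ κ then Fin.last r else (R.col ψ κ).castSucc
  have hΦk : ∀ κ, IsLocallyConstant fun ψ => Φk ψ κ := fun κ =>
    ((R.del_lc κ).prodMk (R.col_lc κ)).comp fun p : Bool × Fin r =>
      if p.1 then Fin.last r else p.2.castSucc
  let q := fun (P : Part A) (f : Fin P.n → Fin (R.s + 1)) =>
    Seeded.seedCol P u (ruleCoef hA R.col R.col_lc) f
  let p := fun (P : Part A) (f : Fin P.n → Fin (R.s + 1)) =>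
    Seeded.seedCol P u (ruleCoef hA Φk hΦk) f
  have hqA : ∀ P f c, q P f c ∈ A := fun P f c => seedCol_mem hA P hU R.col R.col_lc f c
  have hpA : ∀ P f c, p P f c ∈ A := fun P f c => seedCol_mem hA P hU Φk hΦk f c
  let σ := fun (P : Part A) (f : Fin P.n → Fin (R.s + 1)) (χ : Chars A) => f (atom hA P χ)
  have hκ : ∀ (P : Part A) (f : Fin P.n → Fin (R.s + 1)) (ψ : Chars A),
      (fun i => f (atom hA P (hh hA (u i) ψ))) = fun i => σ P f (act G.h (R.wd i) ψ) :=
    fun P f ψ => funext fun i =>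
      congrArg (fun χ => f (atom hA P χ)) (act_word s hs hA (R.wd i) ψ).symm
  have hevq : ∀ P f c ψ, evA ψ (q P f c) = if R.colAt (σ P f) ψ = c then 1 else 0 :=
    fun P f c ψ => by
      refine (evA_seedCol hA P hU R.col R.col_lc f c ψ).trans ?_
      rw [hκ]
      rfl
  have hevp : ∀ P f c ψ, evA ψ (p P f c) = if R.kept (σ P f) ψ = c then 1 else 0 :=
    fun P f c ψ => by
      refine (evA_seedCol hA P hU Φk hΦk f c ψ).trans ?_
      rw [hκ]
      rfl
  have hqp := fun P f => pieces_props hA (R.colAt (σ P f)) (q P f) (hqA P f) (hevq P f)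
  have hpp := fun P f => pieces_props hA (R.kept (σ P f)) (p P f) (hpA P f) (hevp P f)
  refine ⟨R.s, R.N, u, ruleCoef hA R.col R.col_lc, fun P f => p P f (Fin.last r),
    fun i => (hU i).normaliser, fun κ c => ghat_mem hA _,
    fun P f c => ⟨hqA P f c, (hqp P f).1 c⟩, fun P f => (hqp P f).2.1, fun P f => (hqp P f).2.2,
    fun P f => ⟨hpA P f _, (hpp P f).1 _⟩, ?_⟩
  let W : Finset (List (Fin L)) := (words L (2 * (m + 1))).toFinset.biUnion fun v =>
    Finset.univ.image fun i => v ++ wd i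
  filter_upwards [eventually_separated h s hs W] with P hP
  have hsep : ∀ k ≤ 2 * (m + 1), ∀ ψ, ∀ v ∈ R.reach k ψ, ∀ w ∈ R.reach k ψ,
      atom hA P v = atom hA P w → v = w := by
    intro k hk ψ
    have hmem : ∀ v ∈ R.reach k ψ, ∃ w ∈ W, hh hA (wordOp s w) ψ = v := by
      intro v hv
      obtain ⟨w, hw, i, rfl⟩ := exists_of_mem_reach G R hv
      let w' : List (Fin L) := w
      refine ⟨w' ++ wd i, ?_, ?_⟩
      · exact Finset.mem_biUnion.2 ⟨w, List.mem_toFinset.2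
          (mem_words_of_length_le ((length_le_of_mem_words hw).trans hk)),
          Finset.mem_image.2 ⟨i, Finset.mem_univ _, rfl⟩⟩
      · exact (act_word s hs hA (w' ++ wd i) ψ).symm.trans (act_append _ w (R.wd i) ψ)
    intro v hv w hw e
    obtain ⟨v', hv', rfl⟩ := hmem v hv
    obtain ⟨w', hw', rfl⟩ := hmem w hw
    exact hP ψ v' hv' w' hw' e
  set card := (Fintype.card (Fin P.n → Fin (R.s + 1)) : ℝ) with hcard
  have hcard0 : 0 < card := by
    have : Nonempty (Fin P.n → Fin (R.s + 1)) := ⟨fun _ => 0⟩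
    exact Nat.cast_pos.2 Fintype.card_pos
  have hbad : ∀ ψ, card⁻¹ * ∑ f, (if R.delAt (σ P f) ψ ∨ (C / Real.sqrt r) ^ (2 * (m + 1))
      < (G.wpow (R.kept (σ P f)) (2 * (m + 1)) ψ ψ).re then (1 : ℝ) else 0) ≤ δ := fun ψ =>
    (avg_atom_eq hA P (R.reach (2 * (m + 1)) ψ) (hsep _ le_rfl ψ) _
      fun _ _ hσ => bad_congr G R _ hσ).le.trans (hgood.regular ψ)
  have : Nonempty (Fin P.n → Fin (R.s + 1)) := ⟨fun _ => 0⟩
  refine ⟨fun c => ?_, ?_, ?_⟩
  · refine evA_inj hA (sum_mem fun f _ => hqA P f c) (A.toSubalgebra.smul_mem (one_mem A) _)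
      fun ψ => ?_
    rw [evA_finset_sum hA ψ _ fun f _ => hqA P f c, evA_smul ψ _ (one_mem A), evA_one, mul_one]
    have key : card⁻¹ * ∑ f, (if R.colAt (σ P f) ψ = c then (1 : ℝ) else 0) = (r : ℝ)⁻¹ :=
      (avg_atom_eq hA P (R.reach 0 ψ) (hsep _ (Nat.zero_le _) ψ) _ fun σ₁ σ₂ hσ => by
        have := (seeds_congr G R hσ (w := []) le_rfl).1
        simp only [act] at this
        rw [this]).trans (hgood.unif ψ c)
    rw [inv_mul_eq_iff_eq_mul₀ hcard0.ne'] at key
    have key' := congrArg (fun t : ℝ => (t : ℂ)) key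
    simp only [hcard, Complex.ofReal_sum, apply_ite (fun t : ℝ => (t : ℂ)), Complex.ofReal_one,
      Complex.ofReal_zero, Complex.ofReal_mul, Complex.ofReal_natCast, Complex.ofReal_inv] at key'
    rw [div_eq_mul_inv, ← key']
    exact Finset.sum_congr rfl fun f _ => hevq P f c ψ
  · have he : ∀ f, ‖p P f (Fin.last r) Ω‖ ^ 2 = (⟪Ω, p P f (Fin.last r) Ω⟫).re := fun f => by
      rw [proj_norm_sq ((hpp P f).1 _)]
    simp only [he]
    refine avg_re_inner_le h _ (fun f => hpA P f _) fun ψ => le_trans ?_ (hbad ψ)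
    refine mul_le_mul_of_nonneg_left (Finset.sum_le_sum fun f _ => ?_) (inv_nonneg.2 hcard0.le)
    rw [hevp]
    cases hd : R.delAt (σ P f) ψ
    · have : R.kept (σ P f) ψ ≠ Fin.last r := by
        simp [Rule.kept, hd, (Fin.castSucc_lt_last _).ne]
      rw [if_neg this]
      split_ifs <;> simp
    · simp [Rule.kept, hd]
  · have hk : ∀ (f : Fin P.n → Fin (R.s + 1)) (c : Fin r),
        q P f c * (1 - p P f (Fin.last r)) = p P f c.castSucc := fun f c => by
      refine evA_inj hA (mul_mem (hqA P f c) (sub_mem (one_mem A) (hpA P f _))) (hpA P f _)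
        fun ψ => ?_
      have e1 : evA ψ (1 - p P f (Fin.last r)) = 1 - evA ψ (p P f (Fin.last r)) := by
        rw [eq_sub_iff_add_eq, ← evA_add ψ (sub_mem (one_mem A) (hpA P f _)) (hpA P f _),
          sub_add_cancel, evA_one]
      rw [evA_mul ψ (hqA P f c) (sub_mem (one_mem A) (hpA P f _)), e1, hevq, hevp, hevp]
      cases hd : R.delAt (σ P f) ψ
      · simp [Rule.kept, hd, (Fin.castSucc_lt_last _).ne]
      · simp [Rule.kept, hd, (Fin.castSucc_lt_last _).ne']
    refine (mul_le_mul_of_nonneg_left (Finset.sum_le_sum fun f _ =>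
      norm_kept_pow_le h (hqA P f) (hpA P f) (hpp P f).1 (hpp P f).2.1 (hk f) x m)
      (inv_nonneg.2 hcard0.le)).trans ?_
    refine avg_moment_le h s b hs hb hx hxs hx1 hx0 (fun f => R.kept (σ P f)) (fun f => p P f)
      (fun f => hpA P f) (fun f => hevp P f) _ (m + 1) (fun f ψ => ?_) hbad
    split_ifs with hc
    · have h0 : 0 ≤ (C / Real.sqrt r) ^ (2 * (m + 1)) := by positivity
      linarith [wpow_diag_le_one h s b hs hb hx hxs hx1 hx0 (R.kept (σ P f)) (p P f) (hpA P f)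
        (hevp P f) (2 * (m + 1)) ψ]
    · simp only [not_or, not_lt] at hc
      linarith [hc.2]

end Vale.Agent.P078.TypeIII.Regular
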