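import Vale.Agent.P078.TypeIII.Assemble
import Vale.Agent.P078.TypeIII.Seeded.Main
import Vale.Agent.P078.TypeIII.Decomp
import Vale.Agent.P078.TypeIII.Regular.Approx
import Vale.Agent.P078.TypeIII.Regular.Moments

/-!
# From rules on graph models to paving over every MASA

If good rules exist for every graph model, a centred self-adjoint contraction over a MASA in the
centraliser of a separating vector is paved at the vector, so every MASA of every von Neumann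
algebra has the paving property with `r` pieces at a constant times `1 / √r`.
-/

namespace Vale.Agent.P078.TypeIII.Regular

open ComplexInnerProductSpace
open Filter Topology
open Vale.Agent.P078 Vale.Agent.P078.General Vale.Agent.P078.Finite
open Vale.Agent.P078.Transfer
open scoped CStarAlgebra

universe u

variable {H : Type u} [NormedAddCommGroup H] [InnerProductSpace ℂ H] [CompleteSpace H]
variable {M : VonNeumannAlgebra H} {A : StarSubalgebra ℂ (H →L[ℂ] H)} {Ω : H}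
variable (h : CentSetting M A Ω)
include h

lemma norm_plim_apply_le {y : H →L[ℂ] H} (hy : y ∈ M) : ‖plim h.masa y Ω‖ ≤ ‖y Ω‖ :=
  le_of_tendsto' (TypeIII.tendsto_pinch_uf h hy).norm fun P =>
    TypeIII.norm_pinch_apply_le h P hy

/-- The regular part of the truncation error: deletion and the moment of the kept part. -/
lemma kept_error_le {S e : H →L[ℂ] H} (hS : IsSelfAdjoint S) (hS1 : ‖S‖ ≤ 1) (heA : e ∈ A)
    (he : IsStarProjection e) {t η K : ℝ} (ht : 0 < t) (m : ℕ)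
    (hK : ‖(e * S) Ω‖ ^ 2 ≤ η + K * ‖e Ω‖ ^ 2) :
    ‖(S - cfc (clamp t) ((1 - e) * S * (1 - e))) Ω‖ ^ 2
      ≤ 4 * η + 4 * (K + 1) * ‖e Ω‖ ^ 2
        + 2 / (t ^ m) ^ 2 * ‖(((1 - e) * S * (1 - e)) ^ (m + 1)) Ω‖ ^ 2 := by
  have := h
  have := heA
  set S' := (1 - e) * S * (1 - e) with hS'
  have hS's : IsSelfAdjoint S' := by
    rw [hS', IsSelfAdjoint, star_mul, star_mul, hS.star_eq, star_sub, star_one,
      he.isSelfAdjoint.star_eq, mul_assoc]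
  have hcl := Singular.clamp_bound (Ω := Ω) h hS's ht m
  have h2 : ‖(((1 - e) * S) * e) Ω‖ ≤ ‖e Ω‖ := by
    rw [mul_apply_eq_comp]
    refine (((1 - e) * S).le_opNorm _).trans (mul_le_of_le_one_left (norm_nonneg _) ?_)
    exact (norm_mul_le _ _).trans (mul_le_one₀ he.one_sub.norm_le (norm_nonneg _) hS1)
  have e1 : S - cfc (clamp t) S' = e * S + ((1 - e) * S) * e + (S' - cfc (clamp t) S') := by
    rw [hS']; simp only [mul_sub, sub_mul, one_mul, mul_one]; abel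
  rw [e1, add_apply, add_apply]
  have hsum : ∀ a b c : H, ‖a + b + c‖ ^ 2 ≤ 4 * ‖a‖ ^ 2 + 4 * ‖b‖ ^ 2 + 2 * ‖c‖ ^ 2 := by
    intro a b c
    have := (norm_add_le (a + b) c).trans (add_le_add (norm_add_le a b) le_rfl)
    nlinarith [norm_nonneg (a + b + c), sq_nonneg (‖a‖ - ‖b‖), sq_nonneg (‖a‖ + ‖b‖ - ‖c‖)]
  have hpos : (0 : ℝ) < (t ^ m) ^ 2 := by positivity
  have h3 : 2 * ‖(S' - cfc (clamp t) S') Ω‖ ^ 2 ≤ 2 / (t ^ m) ^ 2 * ‖(S' ^ (m + 1)) Ω‖ ^ 2 := by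
    rw [div_mul_eq_mul_div, le_div_iff₀ hpos]
    linarith
  have h4 := pow_le_pow_left₀ (norm_nonneg _) h2 2
  linarith [hsum ((e * S) Ω) (((1 - e) * S * e) Ω) ((S' - cfc (clamp t) S') Ω)]

omit h in
lemma plimₗ_eq' (hA : IsMASAIn M A) (y : H →L[ℂ] H) : plimₗ hA y = plim hA y := rfl

/-- A centred self-adjoint contraction splits into a regular, a mixing and a small part. -/
lemma exists_parts {x : H →L[ℂ] H} (hx : x ∈ M) (hxs : IsSelfAdjoint x) (hx1 : ‖x‖ ≤ 1)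
    (hx0 : plim h.masa x = 0) {η : ℝ} (hη : 0 < η) :
    ∃ X v R : H →L[ℂ] H, (X ∈ symSpan M A ∧ IsSelfAdjoint X ∧ ‖X‖ ≤ 1 ∧ plim h.masa X = 0) ∧
      (v ∈ M ∧ IsSelfAdjoint v ∧ ‖v‖ ≤ 1 ∧ OrthN M A Ω v) ∧ (R ∈ M ∧ ‖R Ω‖ ≤ η) ∧
      x = R + (6 : ℝ) • X + (2 : ℝ) • v := by
  have hA := h.masa
  obtain ⟨n, hn, hnn, hnw, hnsa⟩ := exists_decomp h hx
  have hns := hnsa hxs
  have hn1 : ‖n‖ ≤ 1 := hnn.trans hx1
  set w := x - n with hw
  have hwM : w ∈ M := sub_mem hx hn.1.1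
  have hn0 : plim hA n = 0 := by
    have e : n = x - w := by rw [hw]; abel
    rw [e, ← plimₗ_eq' hA, map_sub, plimₗ_eq', plimₗ_eq', hx0, plim_eq_zero_of_orth h hwM hnw,
      sub_zero]
  obtain ⟨t₁, ht₁, ht₁s, ht₁n, ht₁d⟩ :=
    exists_span_approx h hn hns hn1 (show 0 < η / 2 by linarith)
  have ht₁M := spanN_mem_M ht₁
  set d := plim hA t₁ with hd
  have hdA : d ∈ A := plim_mem hA ht₁M
  have hx₀M : t₁ - d ∈ M := sub_mem ht₁M (hA.mem_M hdA)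
  refine ⟨(6⁻¹ : ℝ) • (t₁ - d), (2⁻¹ : ℝ) • w, n - (t₁ - d), ⟨?_, ?_, ?_, ?_⟩, ⟨?_, ?_, ?_, ?_⟩,
    ⟨sub_mem hn.1.1 hx₀M, ?_⟩, ?_⟩
  · rw [← Complex.coe_smul]
    exact Submodule.smul_mem _ _ (sub_mem (spanN_le_symSpan h ht₁) (symSpan_mem_A hdA))
  · exact (IsSelfAdjoint.all _).smul (ht₁s.sub (plim_isSelfAdjoint hA ht₁s))
  · rw [norm_smul, Real.norm_eq_abs, abs_of_pos (by norm_num : (0:ℝ) < 6⁻¹)]
    have := (norm_sub_le t₁ d).trans (add_le_add le_rfl (plim_norm_le hA t₁))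
    linarith
  · rw [← Complex.coe_smul, plim_smul, ← plimₗ_eq' hA, map_sub, plimₗ_eq', plimₗ_eq',
      plim_of_mem hA hdA, sub_self, smul_zero]
  · rw [← Complex.coe_smul]; exact smul_mem_vna _ hwM
  · exact (IsSelfAdjoint.all _).smul (hxs.sub hns)
  · rw [norm_smul, Real.norm_eq_abs, abs_of_pos (by norm_num : (0:ℝ) < 2⁻¹)]
    linarith [norm_sub_le x n]
  · intro k hk
    rw [← Complex.coe_smul, smul_apply, inner_smul_right, hnw k hk, mul_zero]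
  · rw [show n - (t₁ - d) = (n - t₁) + d by abel, add_apply]
    refine (norm_add_le _ _).trans ?_
    have e : d = plim hA (t₁ - n) := by
      rw [← plimₗ_eq' hA, map_sub, plimₗ_eq', plimₗ_eq', hn0, sub_zero, hd]
    have := norm_plim_apply_le h (sub_mem ht₁M hn.1.1)
    rw [← e, ← neg_sub n t₁, neg_apply, norm_neg] at this
    linarith
  · rw [smul_smul, smul_smul, hw]
    norm_num

omit h in
/-- The numerical budget. -/
lemma exists_budget {a θ N K : ℝ} (ha : 0 < a) (hθ : 0 < θ) (hN : 0 ≤ N) (hK : 0 ≤ K) :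
    ∃ m : ℕ, ∃ δ : ℝ, 0 < δ ∧
      4 * (K + 1) * (δ * N) + 2 / ((2 * a) ^ m) ^ 2 * ((a ^ (2 * (m + 1)) + δ) * N) ≤ θ := by
  obtain ⟨m, hm⟩ : ∃ m : ℕ, a ^ 2 * N * (1 / 4 : ℝ) ^ m ≤ θ / 4 := by
    have := ((tendsto_pow_atTop_nhds_zero_of_lt_one (by norm_num : (0 : ℝ) ≤ 1 / 4)
      (by norm_num : (1 : ℝ) / 4 < 1)).const_mul (a ^ 2 * N))
    rw [mul_zero] at this
    exact (this.eventually (ge_mem_nhds (by positivity : (0 : ℝ) < θ / 4))).exists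
  set U := ((2 * a) ^ m) ^ 2 with hU
  have hU0 : 0 < U := by positivity
  set D := (4 * (K + 1) + 2 / U) * N + 1 with hD
  have hD0 : 0 < D := by positivity
  refine ⟨m, θ / (2 * D), by positivity, ?_⟩
  have hq : ((1 / 4 : ℝ)) ^ m * (4 : ℝ) ^ m = 1 := by rw [← mul_pow]; norm_num
  have hU' : U = (4 : ℝ) ^ m * a ^ (2 * m) := by
    rw [hU, ← pow_mul, mul_comm m 2, mul_pow, pow_mul (2 : ℝ)]; norm_num
  have hid : a ^ (2 * (m + 1)) = a ^ 2 * (1 / 4 : ℝ) ^ m * U := by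
    calc a ^ (2 * (m + 1)) = a ^ 2 * ((1 / 4 : ℝ) ^ m * (4 : ℝ) ^ m) * a ^ (2 * m) := by
          rw [hq]; ring
      _ = _ := by rw [hU']; ring
  have h1 : 2 / U * (a ^ (2 * (m + 1)) * N) ≤ θ / 2 := by
    rw [hid, show 2 / U * (a ^ 2 * (1 / 4) ^ m * U * N) = 2 * (a ^ 2 * N * (1 / 4) ^ m) by
      field_simp]
    linarith
  have h2 : θ / (2 * D) * D = θ / 2 := by field_simp
  have h3 : 0 < θ / (2 * D) := by positivity
  rw [hD, mul_add (θ / (2 * D))] at h2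
  nlinarith [h2, h1, h3]

/-- **Seeded pieces from a good rule**: they pave the regular and the mixing part at once. -/
lemma exists_pave_parts {C : ℝ} (hC : 0 < C) (hR : RuleGoal.{u} C) {X v : H →L[ℂ] H}
    (hXmem : X ∈ symSpan M A) (hXs : IsSelfAdjoint X) (hX1 : ‖X‖ ≤ 1)
    (hX0 : plim h.masa X = 0) (hvM : v ∈ M) (hvs : IsSelfAdjoint v) (hv1 : ‖v‖ ≤ 1)
    (hvN : OrthN M A Ω v) {r : ℕ} (hr : 9 ≤ r) {θ : ℝ} (hθ : 0 < θ) :
    ∃ Q : Part A, Q.n = r ∧ ∃ c₁ c₂ : H →L[ℂ] H,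
      (c₁ ∈ M ∧ IsSelfAdjoint c₁ ∧ ‖c₁‖ ≤ 2 * (C / Real.sqrt r)) ∧
      (c₂ ∈ M ∧ IsSelfAdjoint c₂ ∧ ‖c₂‖ ≤ 8 / Real.sqrt r) ∧
      ‖(Q.pinch X - c₁) Ω‖ ^ 2 + ‖(Q.pinch v - c₂) Ω‖ ^ 2 ≤ θ := by
  classical
  have hA := h.masa
  have hsr : 0 < Real.sqrt r := Real.sqrt_pos.2 (by exact_mod_cast (by omega : 0 < r))
  have hXM : X ∈ M := symSpan_le_vna hA hXmem
  obtain ⟨L, s, b, hs, hb, hrep⟩ := exists_repr hXmem
  obtain ⟨K, hK0, hK⟩ := Seeded.exists_pinched_bound h hXM r (show 0 < θ / 16 by positivity)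
  obtain ⟨m, δ, hδ0, hbudget⟩ := exists_budget (N := ‖Ω‖ ^ 2) (show 0 < C / Real.sqrt r by positivity)
    (show 0 < θ / 4 by positivity) (sq_nonneg _) hK0
  have : CompactSpace (Chars A) := chars_compact hA
  have : T2Space (Chars A) := chars_t2 A
  have : TotallySeparatedSpace (Chars A) := chars_totallySeparated hA
  obtain ⟨R, hgood⟩ := hR (model h s b hs hb hrep hXs hX1 hX0) r hr (m + 1) δ hδ0
  obtain ⟨S, N, u, coef, e, hu, hcoef, hq, hqo, hqt, he, hev⟩ :=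
    exists_seeded_pieces h s b hs hb hrep hXs hX1 hX0 R hC.le hgood
  have hmix := Seeded.mix_avg_seeded h hvM hvs hv1 hvN (show 1 ≤ r by omega) hu hcoef
    (fun P f c => (hq P f c).2) hqo (fun c => hev.mono fun P hP => hP.1 c)
    (show 0 < θ / 4 by positivity)
  obtain ⟨P, ⟨-, hdel, hreg⟩, hmixP⟩ := (hev.and hmix).exists
  have hne : Nonempty (Fin P.n → Fin (S + 1)) := ⟨fun _ => 0⟩
  set t := 2 * (C / Real.sqrt r) with ht
  have ht0 : 0 < t := by positivity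
  set pin : (Fin P.n → Fin (S + 1)) → (H →L[ℂ] H) → (H →L[ℂ] H) := fun f y =>
    ∑ c, Seeded.seedCol P u coef f c * y * Seeded.seedCol P u coef f c with hpin
  set card := (Fintype.card (Fin P.n → Fin (S + 1)) : ℝ) with hcard
  have hcard0 : 0 < card := Nat.cast_pos.2 Fintype.card_pos
  set Q := fun f : Fin P.n → Fin (S + 1) => partOf (Seeded.seedCol P u coef f)
    (fun c => ⟨(hq P f c).1, (hq P f c).2⟩) (hqo P f) (hqt P f) with hQ
  set E₁ := fun f =>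
    ‖(pin f X - cfc (clamp t) ((1 - e P f) * pin f X * (1 - e P f))) Ω‖ ^ 2 with hE₁
  set E₂ := fun f => ‖(pin f v - cfc (clamp (8 / Real.sqrt r)) (pin f v)) Ω‖ ^ 2 with hE₂
  have hE₁le : ∀ f, E₁ f ≤ θ / 4 + 4 * (K + 1) * ‖e P f Ω‖ ^ 2
      + 2 / (t ^ m) ^ 2
        * ‖(((1 - e P f) * pin f X * (1 - e P f)) ^ (m + 1)) Ω‖ ^ 2 := fun f => by
    have hb1 := hK (e P f) (hA.mem_M (he P f).1) (he P f).2.norm_le (Seeded.seedCol P u coef f)
      (fun c => ⟨(hq P f c).1, (hq P f c).2.norm_le⟩)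
    have := kept_error_le h (S := pin f X) (pinch_isSelfAdjoint (Q f) hXs)
      ((norm_pinch_le (Q f) X).trans hX1) (he P f).1 (he P f).2 ht0 m hb1
    refine this.trans (le_of_eq ?_)
    ring
  have h1 : card⁻¹ * ∑ f, E₁ f ≤ θ / 4 + 4 * (K + 1) * (δ * ‖Ω‖ ^ 2)
      + 2 / (t ^ m) ^ 2 * (((C / Real.sqrt r) ^ (2 * (m + 1)) + δ) * ‖Ω‖ ^ 2) := by
    refine (mul_le_mul_of_nonneg_left (Finset.sum_le_sum fun f _ => hE₁le f)
      (inv_nonneg.2 hcard0.le)).trans ?_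
    rw [Finset.sum_add_distrib, Finset.sum_add_distrib, Finset.sum_const, Finset.card_univ,
      nsmul_eq_mul, ← hcard, mul_add, mul_add, inv_mul_cancel_left₀ hcard0.ne',
      ← Finset.mul_sum, ← Finset.mul_sum, mul_left_comm card⁻¹, mul_left_comm card⁻¹]
    exact add_le_add (add_le_add le_rfl (mul_le_mul_of_nonneg_left hdel (by positivity)))
      (mul_le_mul_of_nonneg_left hreg (by positivity))
  have hsum : ∑ f, (E₁ f + E₂ f) ≤ ∑ _f : Fin P.n → Fin (S + 1), θ := by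
    rw [Finset.sum_const, Finset.card_univ, nsmul_eq_mul, ← hcard, ← inv_mul_le_iff₀ hcard0,
      Finset.sum_add_distrib, mul_add]
    linarith [show card⁻¹ * ∑ f, E₂ f ≤ θ / 4 from hmixP]
  obtain ⟨f, -, hf⟩ := Finset.exists_le_of_sum_le Finset.univ_nonempty hsum
  have hQM : ∀ y ∈ M, pin f y ∈ M := fun y hy => General.pinch_mem hA hy (Q f)
  have he1 : 1 - e P f ∈ M := sub_mem (one_mem M) (hA.mem_M (he P f).1)
  exact ⟨Q f, rfl, _, _,
    ⟨cfc_mem (mul_mem (mul_mem he1 (hQM X hXM)) he1) _, cfc_predicate _ _,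
      norm_cfc_clamp_le ht0.le _⟩,
    ⟨cfc_mem (hQM v hvM) _, cfc_predicate _ _, norm_cfc_clamp_le (by positivity) _⟩, hf⟩

/-- **The core.** Good rules pave centred self-adjoint contractions at the vector. -/
theorem core_pave {C : ℝ} (hC : 0 < C) (hR : RuleGoal.{u} C) {x : H →L[ℂ] H} (hx : x ∈ M)
    (hxs : IsSelfAdjoint x) (hx1 : ‖x‖ ≤ 1) (hx0 : plim h.masa x = 0) {r : ℕ} (hr : 9 ≤ r) :
    L2Paved M A Ω ((12 * C + 16) / Real.sqrt r) r x := by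
  intro η hη
  have hA := h.masa
  obtain ⟨X, v, R, ⟨hXmem, hXs, hX1, hX0⟩, ⟨hvM, hvs, hv1, hvN⟩, ⟨hRM, hRn⟩, hxd⟩ :=
    exists_parts h hx hxs hx1 hx0 (show 0 < η / 4 by linarith)
  obtain ⟨Q, hQn, c₁, c₂, ⟨hc₁M, hc₁s, hc₁n⟩, ⟨hc₂M, hc₂s, hc₂n⟩, herr⟩ :=
    exists_pave_parts h hC hR hXmem hXs hX1 hX0 hvM hvs hv1 hvN hr
      (show 0 < (η / 32) ^ 2 by positivity)
  subst hQn
  have hb1 : ‖(Q.pinch X - c₁) Ω‖ ≤ η / 32 :=
    (sq_le_sq₀ (norm_nonneg _) (by linarith)).1 (by linarith [sq_nonneg ‖(Q.pinch v - c₂) Ω‖])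
  have hb2 : ‖(Q.pinch v - c₂) Ω‖ ≤ η / 32 :=
    (sq_le_sq₀ (norm_nonneg _) (by linarith)).1 (by linarith [sq_nonneg ‖(Q.pinch X - c₁) Ω‖])
  refine ⟨Q.e, fun c => ⟨Q.mem c, Q.proj c⟩, Q.orth, Q.total,
    (6 : ℝ) • c₁ + (2 : ℝ) • c₂, ?_, ?_, ?_, ?_⟩
  · rw [← Complex.coe_smul, ← Complex.coe_smul]
    exact add_mem (smul_mem_vna _ hc₁M) (smul_mem_vna _ hc₂M)
  · exact ((IsSelfAdjoint.all _).smul hc₁s).add ((IsSelfAdjoint.all _).smul hc₂s)
  · refine (norm_add_le _ _).trans ?_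
    rw [norm_smul, norm_smul, Real.norm_eq_abs, Real.norm_eq_abs,
      abs_of_pos (by norm_num : (0:ℝ) < 6), abs_of_pos (by norm_num : (0:ℝ) < 2)]
    have : (12 * C + 16) / Real.sqrt Q.n = 6 * (2 * (C / Real.sqrt Q.n)) + 2 * (8 / Real.sqrt Q.n) := by
      ring
    linarith
  change ‖(Q.pinch x - ((6 : ℝ) • c₁ + (2 : ℝ) • c₂)) Ω‖ ≤ η
  have e1 : Q.pinch x - ((6 : ℝ) • c₁ + (2 : ℝ) • c₂)
      = Q.pinch R + (6 : ℝ) • (Q.pinch X - c₁) + (2 : ℝ) • (Q.pinch v - c₂) := by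
    rw [hxd, pinch_add, pinch_add, ← Complex.coe_smul, ← Complex.coe_smul, pinch_smul, pinch_smul,
      Complex.coe_smul, Complex.coe_smul, smul_sub, smul_sub]
    abel
  rw [e1, add_apply, add_apply, smul_apply, smul_apply]
  refine (norm_add₃_le).trans ?_
  rw [norm_smul, norm_smul, Real.norm_eq_abs, Real.norm_eq_abs,
    abs_of_pos (by norm_num : (0:ℝ) < 6), abs_of_pos (by norm_num : (0:ℝ) < 2)]
  linarith [TypeIII.norm_pinch_apply_le h Q hRM]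

omit h in
/-- **All MASAs, from good rules.** -/
theorem allPavable_of_ruleGoal {C : ℝ} (hC : 0 < C) (hR : RuleGoal.{u} C) {r : ℕ} (hr : 9 ≤ r)
    (hA : IsMASAIn M A) {ε : ℝ}
    (hε : max (2 * ((12 * C + 16) / Real.sqrt r)) (1 / (r : ℝ)) + 1 / (r : ℝ) < ε) :
    AllPavable M A ε r := by
  have : NeZero r := ⟨by omega⟩
  exact allPavable_of_centCore
    (fun _ _ _ _ _ _ _ h' _ hx hxs hx1 hx0 => core_pave h' hC hR hx hxs hx1 hx0 hr) hA hε

end Vale.Agent.P078.TypeIII.Regular
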