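import Vale.Agent.P078.TypeIII.Regular.Core

/-!
# The quadratic count from good rules
-/

namespace Vale.Agent.P078.TypeIII.Regular

open Vale.Agent.P078 Vale.Agent.P078.General Vale.Agent.P078.Finite

universe u

/-- If good rules exist with an absolute constant, every MASA of every von Neumann algebra is
`(ε, r)` so-paved for some `r` at most a constant times `ε⁻²`. -/
theorem exists_quadratic_of_ruleGoal {C : ℝ} (hC : 0 < C) (hR : RuleGoal.{u} C) :
    ∃ C' : ℝ, ∀ (H : Type u) [NormedAddCommGroup H] [InnerProductSpace ℂ H] [CompleteSpace H]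
      (M : VonNeumannAlgebra H) (A : StarSubalgebra ℂ (H →L[ℂ] H)),
      IsMASAIn M A → ∀ ε : ℝ, 0 < ε → ε < 1 →
        ∃ r : ℕ, 0 < r ∧ (r : ℝ) ≤ C' / ε ^ 2 ∧ AllPavable M A ε r := by
  set B := 2 * (12 * C + 16) + 2 with hB
  have hB2 : 34 ≤ B := by rw [hB]; linarith
  refine ⟨B ^ 2 + 11, fun H _ _ _ M A hA ε hε hε1 => ?_⟩
  set m := ⌈B ^ 2 / ε ^ 2⌉₊ + 9 with hm
  have hm9 : 9 ≤ m := Nat.le_add_left _ _
  have hm0 : (0 : ℝ) < m := by exact_mod_cast (by omega : 0 < m)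
  have hsq : 0 < Real.sqrt m := Real.sqrt_pos.2 hm0
  have hmR : B ^ 2 / ε ^ 2 < m := by
    rw [hm]; push_cast; linarith [Nat.le_ceil (B ^ 2 / ε ^ 2)]
  have hs : B / ε < Real.sqrt m := by
    refine Real.lt_sqrt_of_sq_lt ?_
    rw [div_pow]; exact hmR
  have hBs : B < Real.sqrt m * ε := by rwa [div_lt_iff₀ hε] at hs
  refine ⟨m, by omega, ?_, allPavable_of_ruleGoal hC hR hm9 hA ?_⟩
  · have h2 : (m : ℝ) ≤ B ^ 2 / ε ^ 2 + 10 := by
      rw [hm]; push_cast
      linarith [Nat.ceil_lt_add_one (show (0:ℝ) ≤ B ^ 2 / ε ^ 2 by positivity)]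
    refine h2.trans ?_
    rw [div_add' _ _ _ (by positivity), div_le_div_iff_of_pos_right (by positivity)]
    nlinarith
  · have hle : Real.sqrt m ≤ m := by
      nlinarith [Real.mul_self_sqrt hm0.le, Real.one_le_sqrt.2
        (show (1:ℝ) ≤ m by exact_mod_cast (by omega : 1 ≤ m))]
    have h1 : 1 / (m : ℝ) ≤ 1 / Real.sqrt m := one_div_le_one_div_of_le hsq hle
    have hc : 0 ≤ 2 * ((12 * C + 16) / Real.sqrt m) := by positivity
    have h2 : max (2 * ((12 * C + 16) / Real.sqrt m)) (1 / (m : ℝ)) + 1 / (m : ℝ)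
        ≤ B / Real.sqrt m := by
      have h3 : B / Real.sqrt m
          = 2 * ((12 * C + 16) / Real.sqrt m) + 2 * (1 / Real.sqrt m) := by rw [hB]; ring
      have h4 : 0 ≤ 1 / (m : ℝ) := by positivity
      rw [h3]
      rcases max_cases (2 * ((12 * C + 16) / Real.sqrt m)) (1 / (m : ℝ)) with ⟨e, -⟩ | ⟨e, -⟩ <;>
        rw [e] <;> linarith
    refine h2.trans_lt ?_
    rw [div_lt_iff₀ hsq]
    linarith

end Vale.Agent.P078.TypeIII.Regular
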